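import Vale.Agent.P318.R2.H858.Coh

/-!
# The algebra of a coherent configuration, and kernel vectors with few values
-/

open Finset Matrix

namespace Vale.Agent.P318.R2.H858

open Vale.Agent.P318.H867

variable {V : Type*} [Fintype V] [DecidableEq V] {κ : Type*} [DecidableEq κ]

/-- the matrix entries depend only on the colour -/
def InAlg (col : V → V → κ) (A : Matrix V V ℝ) : Prop :=
  ∀ x y x' y', col x y = col x' y' → A x y = A x' y'

omit [Fintype V] [DecidableEq V] [DecidableEq κ] in
lemma InAlg.factor {col : V → V → κ} {A : Matrix V V ℝ} (h : InAlg col A) :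
    ∃ α : κ → ℝ, ∀ x y, A x y = α (col x y) := by
  classical
  refine ⟨fun k => if h : ∃ p : V × V, col p.1 p.2 = k then A h.choose.1 h.choose.2 else 0, ?_⟩
  intro x y
  have hex : ∃ p : V × V, col p.1 p.2 = col x y := ⟨(x, y), rfl⟩
  simp only [dif_pos hex]
  exact h _ _ _ _ hex.choose_spec.symm

omit [DecidableEq V] in
lemma InAlg.mul {col : V → V → κ} (hcol : IsCoherent col) {A B : Matrix V V ℝ}
    (hA : InAlg col A) (hB : InAlg col B) : InAlg col (A * B) := by
  classical
  obtain ⟨α, hα⟩ := hA.factor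
  obtain ⟨β, hβ⟩ := hB.factor
  set U : Finset κ := (univ : Finset (V × V)).image (fun p => col p.1 p.2) with hU
  have hmem : ∀ x y, col x y ∈ U := fun x y =>
    mem_image.2 ⟨(x, y), mem_univ _, rfl⟩
  have key : ∀ x y, (A * B) x y = ∑ p ∈ U ×ˢ U,
      ((univ.filter fun z => col x z = p.1 ∧ col z y = p.2).card : ℝ) * (α p.1 * β p.2) := by
    intro x y
    rw [Matrix.mul_apply]
    rw [← sum_fiberwise_of_maps_to (s := univ) (t := U ×ˢ U) (g := fun z => (col x z, col z y))
      (fun z _ => mem_product.2 ⟨hmem _ _, hmem _ _⟩)]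
    refine sum_congr rfl fun p _ => ?_
    have e : (univ.filter fun z => (col x z, col z y) = p) =
        (univ.filter fun z => col x z = p.1 ∧ col z y = p.2) := by
      ext z; simp [Prod.ext_iff]
    rw [e]
    rw [← nsmul_eq_mul, ← sum_const]
    refine sum_congr rfl fun z hz => ?_
    simp only [mem_filter, mem_univ, true_and] at hz
    rw [hα, hβ, hz.1, hz.2]
  intro x y x' y' h
  rw [key, key]
  refine sum_congr rfl fun p _ => ?_
  rw [hcol.inter x y x' y' h p.1 p.2]

/-- the algebra as a subalgebra -/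
def alg {col : V → V → κ} (hcol : IsCoherent col) : Subalgebra ℝ (Matrix V V ℝ) where
  carrier := {A | InAlg col A}
  mul_mem' := fun ha hb => InAlg.mul hcol ha hb
  add_mem' := fun {a b} ha hb x y x' y' h => by
    show a x y + b x y = a x' y' + b x' y'
    rw [ha x y x' y' h, hb x y x' y' h]
  algebraMap_mem' := fun t x y x' y' h => by
    rw [Matrix.algebraMap_matrix_apply, Matrix.algebraMap_matrix_apply]
    have : x = y ↔ x' = y' := by
      constructor
      · intro e
        subst e
        exact hcol.diag x x' y' h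
      · intro e
        subst e
        exact hcol.diag x' x y h.symm
    by_cases e : x = y
    · rw [if_pos e, if_pos (this.1 e)]
    · rw [if_neg e, if_neg (fun e' => e (this.2 e'))]

lemma inAlg_aeval {col : V → V → κ} (hcol : IsCoherent col) {B : Matrix V V ℝ}
    (hB : InAlg col B) (q : Polynomial ℝ) : InAlg col (Polynomial.aeval B q) := by
  have h1 : Polynomial.aeval B q ∈ Algebra.adjoin ℝ {B} :=
    Polynomial.aeval_mem_adjoin_singleton ℝ B
  have h2 : Algebra.adjoin ℝ {B} ≤ alg hcol := by
    rw [Algebra.adjoin_le_iff, Set.singleton_subset_iff]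
    exact hB
  exact h2 h1

/-- a kernel vector that is a column of an element of the algebra -/
lemma exists_column {col : V → V → κ} (hcol : IsCoherent col) {B : Matrix V V ℝ}
    (hB : InAlg col B) (hsym : Bᵀ = B) {f : V → ℝ} (hf : B *ᵥ f = 0)
    (hne : ∃ x y, f x ≠ f y) :
    ∃ E : Matrix V V ℝ, InAlg col E ∧ ∃ w, B *ᵥ (fun x => E x w) = 0 ∧
      ∃ x y, E x w ≠ E y w := by
  classical
  have hint : IsIntegral ℝ B := Matrix.isIntegral B
  set m := minpoly ℝ B with hm
  have hm0 : m ≠ 0 := minpoly.ne_zero hint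
  have hmB : Polynomial.aeval B m = 0 := minpoly.aeval ℝ B
  have hf0 : f ≠ 0 := by
    obtain ⟨x, y, hxy⟩ := hne
    rintro rfl
    exact hxy rfl
  -- action of polynomials on f
  have hact : ∀ q : Polynomial ℝ, (Polynomial.aeval B q) *ᵥ f = q.eval 0 • f := by
    intro q
    induction q using Polynomial.induction_on' with
    | add p q hp hq =>
      rw [map_add, Matrix.add_mulVec, hp, hq, Polynomial.eval_add, add_smul]
    | monomial n a =>
      rw [Polynomial.aeval_monomial]
      rcases n with _ | n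
      · simp [Algebra.algebraMap_eq_smul_one, Matrix.smul_mulVec]
      · rw [pow_succ, ← mul_assoc, ← Matrix.mulVec_mulVec, hf, Matrix.mulVec_zero]
        simp
  have hm_root : m.eval 0 = 0 := by
    have h1 := hact m
    rw [hmB, Matrix.zero_mulVec] at h1
    rcases smul_eq_zero.1 h1.symm with h | h
    · exact h
    · exact absurd h hf0
  obtain ⟨q, hq⟩ : Polynomial.X ∣ m := Polynomial.X_dvd_iff.2 (by
    rw [Polynomial.coeff_zero_eq_eval_zero]; exact hm_root)
  have hq0 : q.eval 0 ≠ 0 := by
    intro h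
    obtain ⟨q1, hq1⟩ : Polynomial.X ∣ q := Polynomial.X_dvd_iff.2 (by
      rw [Polynomial.coeff_zero_eq_eval_zero]; exact h)
    have h1 : B * (B * Polynomial.aeval B q1) = 0 := by
      have h := hmB
      rw [hq, hq1, map_mul, map_mul, Polynomial.aeval_X] at h
      exact h
    have h2 : B * Polynomial.aeval B q1 = 0 := by
      have h3 : (B * Polynomial.aeval B q1)ᴴ * (B * Polynomial.aeval B q1) = 0 := by
        rw [Matrix.conjTranspose_eq_transpose_of_trivial, Matrix.transpose_mul, hsym,
          Matrix.mul_assoc, h1, Matrix.mul_zero]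
      exact Matrix.conjTranspose_mul_self_eq_zero.1 h3
    have h3 : Polynomial.aeval B (Polynomial.X * q1) = 0 := by
      rw [map_mul, Polynomial.aeval_X, h2]
    have hX : (Polynomial.X * q1 : Polynomial ℝ) ≠ 0 := by
      intro h0
      apply hm0
      rw [hq, hq1, h0, mul_zero]
    have h4 := minpoly.degree_le_of_ne_zero ℝ B hX h3
    rw [← hm, hq, hq1, Polynomial.degree_mul, Polynomial.degree_X] at h4
    have h5 : (Polynomial.X * q1 : Polynomial ℝ).degree ≠ ⊥ := by
      rw [Ne, Polynomial.degree_eq_bot]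
      exact hX
    obtain ⟨n, hn⟩ := WithBot.ne_bot_iff_exists.1 h5
    rw [← hn] at h4
    have h6 : ((1 + n : ℕ) : WithBot ℕ) ≤ (n : WithBot ℕ) := by
      push_cast
      exact h4
    have h7 : 1 + n ≤ n := by exact_mod_cast h6
    omega
  refine ⟨Polynomial.aeval B q, inAlg_aeval hcol hB q, ?_⟩
  have hBE : B * Polynomial.aeval B q = 0 := by
    have h := hmB
    rw [hq, map_mul, Polynomial.aeval_X] at h
    exact h
  by_contra hcon
  push Not at hcon
  have hker : ∀ w, B *ᵥ (fun x => Polynomial.aeval B q x w) = 0 := by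
    intro w
    ext x
    have := congrFun (congrFun hBE x) w
    rw [Matrix.mul_apply] at this
    exact this
  have hconst : ∀ w x y, Polynomial.aeval B q x w = Polynomial.aeval B q y w :=
    fun w => hcon w (hker w)
  obtain ⟨x, y, hxy⟩ := hne
  apply hxy
  have h1 := congrFun (hact q) x
  have h2 := congrFun (hact q) y
  have h3 : (Polynomial.aeval B q *ᵥ f) x = (Polynomial.aeval B q *ᵥ f) y := by
    simp only [Matrix.mulVec, dotProduct]
    refine sum_congr rfl fun w _ => ?_
    rw [hconst w x y]
  rw [h1, h2] at h3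
  simp only [Pi.smul_apply, smul_eq_mul] at h3
  exact mul_left_cancel₀ hq0 h3

/-- the quadratic form of a weighted Laplacian -/
def lap (w : V → V → ℝ) : Matrix V V ℝ := fun x y => (if x = y then ∑ z, w x z else 0) - w x y

lemma lap_mulVec (w : V → V → ℝ) (f : V → ℝ) (x : V) :
    (lap w *ᵥ f) x = ∑ y, w x y * (f x - f y) := by
  simp only [Matrix.mulVec, dotProduct, lap, sub_mul, sum_sub_distrib, mul_sub]
  congr 1
  simp only [ite_mul, zero_mul, sum_ite_eq, mem_univ, if_true, sum_mul]

lemma lap_form {w : V → V → ℝ} (hw : ∀ i j, w i j = w j i) (f : V → ℝ) :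
    ∑ x, f x * (lap w *ᵥ f) x = (∑ x, ∑ y, w x y * (f x - f y) ^ 2) / 2 := by
  simp only [lap_mulVec, mul_sum]
  have h1 : ∑ x, ∑ y, f x * (w x y * (f x - f y)) = ∑ x, ∑ y, f y * (w x y * (f y - f x)) := by
    rw [sum_comm]
    refine sum_congr rfl fun x _ => sum_congr rfl fun y _ => ?_
    rw [hw y x]
  have h2 : ∑ x, ∑ y, w x y * (f x - f y) ^ 2 =
      ∑ x, ∑ y, f x * (w x y * (f x - f y)) + ∑ x, ∑ y, f y * (w x y * (f y - f x)) := by
    rw [← sum_add_distrib]
    refine sum_congr rfl fun x _ => ?_
    rw [← sum_add_distrib]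
    refine sum_congr rfl fun y _ => ?_
    ring
  rw [h2, ← h1]
  ring

lemma lap_symm {w : V → V → ℝ} (hw : ∀ i j, w i j = w j i) : (lap w)ᵀ = lap w := by
  ext x y
  simp only [Matrix.transpose_apply, lap]
  by_cases h : x = y
  · subst h; rfl
  · rw [if_neg h, if_neg (Ne.symm h), hw]

/-- a zero of a nonnegative Laplacian form is a kernel vector -/
lemma lap_ker {w : V → V → ℝ} (hw : ∀ i j, w i j = w j i)
    (hpos : ∀ f : V → ℝ, 0 ≤ ∑ x, ∑ y, w x y * (f x - f y) ^ 2) {f : V → ℝ}
    (hf : ∑ x, ∑ y, w x y * (f x - f y) ^ 2 = 0) : lap w *ᵥ f = 0 := by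
  have hpsd : (lap w).PosSemidef := by
    rw [Matrix.posSemidef_iff_dotProduct_mulVec]
    refine ⟨?_, fun g => ?_⟩
    · rw [Matrix.IsHermitian, Matrix.conjTranspose_eq_transpose_of_trivial]
      exact lap_symm hw
    · have := lap_form hw g
      simp only [star_trivial, dotProduct]
      rw [this]
      exact div_nonneg (hpos g) (by norm_num)
  have h1 := (hpsd.dotProduct_mulVec_zero_iff f).1 (by
    have := lap_form hw f
    simp only [star_trivial, dotProduct]
    rw [this, hf, zero_div])
  exact h1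

end Vale.Agent.P318.R2.H858
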