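import Vale.Agent.P318.R2.H858.Root

/-!
# Relaxation values, permutation groups, class functions
-/

open Finset Matrix

namespace Vale.Agent.P318.R2.H858

open Vale.Agent.P318.H867

section general

variable {V : Type*} [Fintype V] [DecidableEq V]

/-- from every feasible solution to the relaxation -/
lemma le_gl [Nontrivial V] {c : V → V → ℝ} {K : ℝ} (hK : 0 < K)
    (h : ∀ d : V → V → ℝ, IsNegTypeSemimetric d → ∑ i, ∑ j, d i j = 2 →
      phi c * 2 ≤ K * ∑ i, ∑ j, c i j * d i j) : phi c ≤ K * glValue c := by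
  rw [← div_le_iff₀' hK]
  apply le_csInf
  · obtain ⟨d, hd, h1⟩ := exists_feasible V
    exact ⟨_, d, hd, h1, rfl⟩
  · rintro t ⟨d, hd, h1, rfl⟩
    rw [div_le_iff₀' hK]
    have := h d hd (by linarith)
    linarith

/-- the bound of order `sqrt r` for the relaxation -/
theorem root_gl [Nontrivial V] {κ : Type*} [DecidableEq κ] {c : V → V → ℝ}
    (hc : ∀ i j, 0 ≤ c i j)
    (hs : ∀ i j, c i j = c j i) {col : V → V → κ} (hcol : IsCoherent col)
    (hcomm : IsCommCol col)
    (hcc : ∀ x y x' y', col x y = col x' y' → c x y = c x' y')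
    {r : ℕ} (F : Finset κ) (hF : F.card ≤ r) (hcov : ∀ x y, x ≠ y → col x y ∈ F ∨ col y x ∈ F) :
    phi c ≤ Real.sqrt (32 * r) * glValue c := by
  have hr : 0 < r := by
    obtain ⟨p, q, hpq⟩ := exists_pair_ne V
    rcases hcov p q hpq with h | h
    · exact lt_of_lt_of_le (card_pos.2 ⟨_, h⟩) hF
    · exact lt_of_lt_of_le (card_pos.2 ⟨_, h⟩) hF
  have hr' : (0 : ℝ) < r := by exact_mod_cast hr
  refine le_gl (Real.sqrt_pos.2 (by positivity)) ?_
  rintro d ⟨⟨v, hv⟩, htr⟩ hD
  have h := root_bound hc hs hcol hcomm hcc F hF hcov v hv htr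
  rw [hD] at h
  have hE : 0 ≤ ∑ i, ∑ j, c i j * d i j := sum_nonneg fun i _ => sum_nonneg fun j _ =>
    mul_nonneg (hc i j) (by rw [hv]; positivity)
  apply le_of_sq_le_sq _ (by positivity)
  have e : (Real.sqrt (32 * r) * ∑ i, ∑ j, c i j * d i j) ^ 2 =
      32 * r * (∑ i, ∑ j, c i j * d i j) ^ 2 := by
    rw [mul_pow, Real.sq_sqrt (by positivity)]
  rw [e]
  exact h

end general

section perm

variable {V : Type*} [Fintype V] {G : Type*} [Group G] [MulAction G V]

/-- the orbital of a pair -/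
noncomputable def orb (G : Type*) {V : Type*} [Group G] [MulAction G V] (x y : V) :
    MulAction.orbitRel.Quotient G (V × V) := Quotient.mk _ (x, y)

omit [Fintype V] in
lemma orb_eq {x y x' y' : V} : orb G x y = orb G x' y' ↔ ∃ g : G, g • x' = x ∧ g • y' = y := by
  unfold orb
  rw [Quotient.eq]
  constructor
  · intro h
    obtain ⟨g, hg⟩ := MulAction.orbitRel_apply.1 h
    exact ⟨g, congrArg Prod.fst hg, congrArg Prod.snd hg⟩
  · rintro ⟨g, h1, h2⟩
    exact MulAction.orbitRel_apply.2 ⟨g, Prod.ext h1 h2⟩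

open Classical in
lemma orb_coherent : IsCoherent (orb G : V → V → MulAction.orbitRel.Quotient G (V × V)) where
  diag := by
    intro x y z h
    obtain ⟨g, h1, h2⟩ := orb_eq.1 h
    have : g • y = g • z := by rw [h1, h2]
    exact smul_left_cancel g this
  symm := by
    intro x y x' y' h
    obtain ⟨g, h1, h2⟩ := orb_eq.1 h
    exact orb_eq.2 ⟨g, h2, h1⟩
  inter := by
    intro x y x' y' h i j
    obtain ⟨g, h1, h2⟩ := orb_eq.1 h
    symm
    refine card_bijective (fun z => g • z) (MulAction.bijective g) ?_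
    intro z
    simp only [mem_filter, mem_univ, true_and]
    have e1 : orb G x (g • z) = orb G x' z := orb_eq.2 ⟨g, h1, rfl⟩
    have e2 : orb G (g • z) y = orb G z y' := orb_eq.2 ⟨g, rfl, h2⟩
    rw [e1, e2]

open Classical in
lemma orb_comm (hg : ∀ x y : V, ∃ g : G, g • x = y ∧ g • y = x) :
    IsCommCol (orb G : V → V → MulAction.orbitRel.Quotient G (V × V)) := by
  have hsym : ∀ x y : V, orb G x y = orb G y x := by
    intro x y
    obtain ⟨g, h1, h2⟩ := hg y x
    exact orb_eq.2 ⟨g, h1, h2⟩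
  intro x y i j
  obtain ⟨g, h1, h2⟩ := hg x y
  refine card_bijective (fun z => g • z) (MulAction.bijective g) ?_
  intro z
  simp only [mem_filter, mem_univ, true_and]
  have e1 : orb G x (g • z) = orb G z y := by
    rw [hsym x (g • z)]
    exact orb_eq.2 ⟨g, rfl, h2⟩
  have e2 : orb G (g • z) y = orb G x z := by
    rw [hsym x z]
    exact orb_eq.2 ⟨g, rfl, h1⟩
  rw [e1, e2]
  exact and_comm

/-- permutation groups -/
theorem perm_bound [DecidableEq V] [Nontrivial V] {c : V → V → ℝ} (hc : ∀ i j, 0 ≤ c i j)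
    (hs : ∀ i j, c i j = c j i) (hinv : ∀ (g : G) (x y : V), c (g • x) (g • y) = c x y)
    {r : ℕ} (P : Fin r → V × V)
    (hP : ∀ x y, x ≠ y → ∃ (i : Fin r) (g : G), x = g • (P i).1 ∧ y = g • (P i).2) :
    phi c ≤ r * glValue c ∧
      ((∀ x y : V, ∃ g : G, g • x = y ∧ g • y = x) → phi c ≤ Real.sqrt (32 * r) * glValue c) ∧
      (∀ d : V → V → ℝ, (∀ i, d i i = 0) → (∀ i j, d i j = d j i) →
        (∀ i j k, d i k ≤ d i j + d j k) →
          phi c * ∑ i, ∑ j, d i j ≤ 9 * r * ∑ i, ∑ j, c i j * d i j) := by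
  classical
  have hcc : ∀ x y x' y' : V, orb G x y = orb G x' y' → c x y = c x' y' := by
    intro x y x' y' h
    obtain ⟨g, h1, h2⟩ := orb_eq.1 h
    rw [← h1, ← h2, hinv]
  set F := (univ : Finset (Fin r)).image fun i => orb G (P i).1 (P i).2 with hFdef
  have hF : F.card ≤ r := card_image_le.trans (by simp)
  have hcovF : ∀ x y, x ≠ y → orb G x y ∈ F := by
    intro x y h
    obtain ⟨i, g, h1, h2⟩ := hP x y h
    exact mem_image.2 ⟨i, mem_univ _, orb_eq.2 ⟨g⁻¹, by rw [h1, inv_smul_smul], by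
      rw [h2, inv_smul_smul]⟩⟩
  refine ⟨?_, ?_, ?_⟩
  · refine gl_bound hc hs orb_coherent hcc (fun w => ?_)
    refine (card_le_card ?_).trans hF
    intro k hk
    obtain ⟨x, hx, rfl⟩ := mem_image.1 hk
    exact hcovF x w (by simpa using hx)
  · intro hg
    exact root_gl hc hs orb_coherent (orb_comm hg) hcc F hF (fun x y h => Or.inl (hcovF x y h))
  · intro d h0 hsy htr
    exact coherent_bound hc hs orb_coherent hcc F hF (fun x y h => Or.inl (hcovF x y h)) h0 hsy htr

end perm

section classfun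

variable {Γ : Type*} [Group Γ] [Fintype Γ]

/-- the conjugacy class of an element, as a set -/
def cset {Γ : Type*} [Group Γ] (a : Γ) : Set Γ := {g | IsConj a g}

/-- the conjugacy class of `x⁻¹ y` -/
def cj {Γ : Type*} [Group Γ] (x y : Γ) : Set Γ := cset (x⁻¹ * y)

omit [Fintype Γ] in
lemma cset_eq {a b : Γ} : cset a = cset b ↔ IsConj a b := by
  constructor
  · intro h
    have : b ∈ cset a := by rw [h]; exact IsConj.refl b
    exact this
  · intro h
    ext g
    exact ⟨fun h' => h.symm.trans h', fun h' => h.trans h'⟩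

omit [Fintype Γ] in
lemma cj_eq {x y x' y' : Γ} : cj x y = cj x' y' ↔ ∃ t : Γ, t * (x⁻¹ * y) * t⁻¹ = x'⁻¹ * y' := by
  unfold cj
  rw [cset_eq, isConj_iff]

open Classical in
lemma cj_coherent : IsCoherent (cj : Γ → Γ → Set Γ) where
  diag := by
    intro x y z h
    obtain ⟨t, ht⟩ := cj_eq.1 h
    rw [inv_mul_cancel, mul_one, mul_inv_cancel] at ht
    exact (inv_mul_eq_one.1 ht.symm)
  symm := by
    intro x y x' y' h
    obtain ⟨t, ht⟩ := cj_eq.1 h
    refine cj_eq.2 ⟨t, ?_⟩
    have : y'⁻¹ * x' = (x'⁻¹ * y')⁻¹ := by group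
    rw [this, ← ht]
    group
  inter := by
    intro x y x' y' h i j
    obtain ⟨t, ht⟩ := cj_eq.1 h
    refine card_bijective (fun z => x' * t * x⁻¹ * z * t⁻¹) ?_ ?_
    · constructor
      · intro z z' hz
        simpa using hz
      · intro z
        refine ⟨x * t⁻¹ * x'⁻¹ * z * t, ?_⟩
        show x' * t * x⁻¹ * (x * t⁻¹ * x'⁻¹ * z * t) * t⁻¹ = z
        group
    · intro z
      simp only [mem_filter, mem_univ, true_and]
      have e1 : cj x' (x' * t * x⁻¹ * z * t⁻¹) = cj x z := by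
        symm
        refine cj_eq.2 ⟨t, ?_⟩
        group
      have e2 : cj (x' * t * x⁻¹ * z * t⁻¹) y' = cj z y := by
        symm
        refine cj_eq.2 ⟨t, ?_⟩
        have : (x' * t * x⁻¹ * z * t⁻¹)⁻¹ * y' = t * z⁻¹ * x * t⁻¹ * (x'⁻¹ * y') := by group
        rw [this, ← ht]
        group
      rw [e1, e2]

open Classical in
lemma cj_comm : IsCommCol (cj : Γ → Γ → Set Γ) := by
  intro x y i j
  refine card_bijective (fun z => x * z⁻¹ * y) ?_ ?_
  · constructor
    · intro z z' hz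
      simpa using hz
    · intro z
      refine ⟨y * z⁻¹ * x, ?_⟩
      show x * (y * z⁻¹ * x)⁻¹ * y = z
      group
  · intro z
    simp only [mem_filter, mem_univ, true_and]
    have e1 : cj x (x * z⁻¹ * y) = cj z y := by
      unfold cj
      congr 1
      group
    have e2 : cj (x * z⁻¹ * y) y = cj x z := by
      symm
      refine cj_eq.2 ⟨y⁻¹ * x, ?_⟩
      group
    rw [e1, e2]
    exact and_comm

/-- capacities given by a class function on a finite group -/
theorem class_bound [DecidableEq Γ] [Nontrivial Γ] {c : Γ → ℝ} (hc : ∀ g, 0 ≤ c g) (hs : ∀ g, c g⁻¹ = c g)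
    (hcl : ∀ g t, c (t * g * t⁻¹) = c g) {r : ℕ} (T : Fin r → Γ)
    (hT : ∀ g, g ≠ 1 → ∃ i, IsConj g (T i) ∨ IsConj g⁻¹ (T i)) :
    phi (fun x y => c (x⁻¹ * y)) ≤ Real.sqrt (32 * r) * glValue (fun x y => c (x⁻¹ * y)) := by
  classical
  set F := (univ : Finset (Fin r)).image fun i => cset (T i) with hFdef
  have hF : F.card ≤ r := card_image_le.trans (by simp)
  refine root_gl (c := fun x y => c (x⁻¹ * y)) (fun x y => hc _) (fun x y => ?_)
    cj_coherent cj_comm ?_ F hF ?_
  · show c (x⁻¹ * y) = c (y⁻¹ * x)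
    rw [← hs]
    congr 1
    group
  · intro x y x' y' h
    obtain ⟨t, ht⟩ := cj_eq.1 h
    show c (x⁻¹ * y) = c (x'⁻¹ * y')
    rw [← ht, hcl]
  · intro x y hxy
    have hne : x⁻¹ * y ≠ 1 := fun h => hxy (inv_mul_eq_one.1 h)
    obtain ⟨i, hi | hi⟩ := hT _ hne
    · left
      exact mem_image.2 ⟨i, mem_univ _, (cset_eq.2 hi).symm⟩
    · right
      refine mem_image.2 ⟨i, mem_univ _, ?_⟩
      unfold cj
      have : y⁻¹ * x = (x⁻¹ * y)⁻¹ := by group
      rw [this]
      exact (cset_eq.2 hi).symm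

end classfun

end Vale.Agent.P318.R2.H858
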