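import Vale.Agent.P318.R2.H743.Scheme
import Vale.Agent.P318.R2.H858.Groups

/-!
# The bounds of this folder for the coherent configurations of `H743`
-/

open Finset

namespace Vale.Agent.P318.R2.H858

open Vale.Agent.P318.H867 Vale.Agent.P318.H743

variable {V ι : Type*} [Fintype V] [DecidableEq V] [DecidableEq ι]

omit [DecidableEq V] in
lemma isCoherent_of {r : V → V → ι} (hr : Coherent r) : IsCoherent r where
  diag := hr.diag
  symm := hr.rev
  inter := hr.count

omit [DecidableEq V] in
lemma isCommCol_of {r : V → V → ι} (hr : Comm r) : IsCommCol r := fun x y i j => hr x y i j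

/-- If at most `m` classes are seen from every point, the spectral relaxation (no triangle
inequalities) loses at most the factor `m`. -/
theorem spectral [Nontrivial V] {r : V → V → ι} {c : V → V → ℝ} {m : ℕ} (hr : Coherent r)
    (hcr : ClassFun r c) (hc : ∀ u v, 0 ≤ c u v) (hs : ∀ u v, c u v = c v u)
    (hm : ∀ w, ((univ.filter fun u => u ≠ w).image fun u => r u w).card ≤ m) :
    (∀ x : V → EuclideanSpace ℝ V,
      phi c * ∑ u, ∑ v, ‖x u - x v‖ ^ 2 ≤ m * ∑ u, ∑ v, c u v * ‖x u - x v‖ ^ 2) ∧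
    phi c ≤ m * glValue c :=
  ⟨fun x => spectral_bound_vec hc hs (isCoherent_of hr) hcr hm
      (d := fun u v => ‖x u - x v‖ ^ 2) x fun _ _ => rfl,
    gl_bound hc hs (isCoherent_of hr) hcr hm⟩

/-- If the classes in `F` and their reverses contain all pairs of distinct points, `9 |F|` bounds
the loss of the flow relaxation, and `√(32 |F|)` the gap in the commutative case. -/
theorem cover [Nontrivial V] {r : V → V → ι} {c : V → V → ℝ} {k : ℕ} (hr : Coherent r)
    (hcr : ClassFun r c) (hc : ∀ u v, 0 ≤ c u v) (hs : ∀ u v, c u v = c v u)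
    (F : Finset ι) (hF : F.card ≤ k) (hcov : ∀ u v, u ≠ v → r u v ∈ F ∨ r v u ∈ F) :
    (∀ d : V → V → ℝ, (∀ u, d u u = 0) → (∀ u v, d u v = d v u) →
      (∀ u v w, d u w ≤ d u v + d v w) →
        phi c * ∑ u, ∑ v, d u v ≤ 9 * k * ∑ u, ∑ v, c u v * d u v) ∧
    (Comm r → phi c ≤ Real.sqrt (32 * k) * glValue c) :=
  ⟨fun _ h0 hsy htr => coherent_bound hc hs (isCoherent_of hr) hcr F hF hcov h0 hsy htr,
    fun hcm => root_gl hc hs (isCoherent_of hr) (isCommCol_of hcm) hcr F hF hcov⟩

end Vale.Agent.P318.R2.H858
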