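import Vale.Agent.P318.R2.H858.Spec

/-!
# Cheeger's inequality for uniform demands, with the degree of the separated edges only
-/

open Finset

namespace Vale.Agent.P318.R2.H858

open Vale.Agent.P318.H867

variable {V : Type*} [Fintype V] [DecidableEq V]

/-- a median -/
lemma exists_median [Nonempty V] (f : V → ℝ) :
    ∃ m : ℝ, 2 * (univ.filter fun x => m < f x).card ≤ Fintype.card V ∧
      2 * (univ.filter fun x => f x < m).card ≤ Fintype.card V := by
  classical
  set T := (univ.image f).filter fun t => 2 * (univ.filter fun x => t < f x).card ≤ Fintype.card V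
    with hT
  have hne : T.Nonempty := by
    obtain ⟨x₀, -, hx₀⟩ := exists_max_image univ f univ_nonempty
    refine ⟨f x₀, ?_⟩
    rw [hT, mem_filter]
    refine ⟨mem_image_of_mem _ (mem_univ _), ?_⟩
    have : (univ.filter fun x => f x₀ < f x) = ∅ := by
      rw [filter_eq_empty_iff]
      intro x _
      exact not_lt.2 (hx₀ x (mem_univ _))
    rw [this]
    simp
  set m := T.min' hne with hm
  have hmT : m ∈ T := min'_mem _ _
  refine ⟨m, (mem_filter.1 hmT).2, ?_⟩
  by_contra hcon
  push Not at hcon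
  set W := univ.filter fun x => f x < m with hW
  have hWne : W.Nonempty := by
    rw [← card_pos]
    omega
  obtain ⟨x₁, hx₁, hmax⟩ := exists_max_image W f hWne
  have h1 : f x₁ < m := (mem_filter.1 hx₁).2
  have h2 : (univ.filter fun x => f x₁ < f x) = Wᶜ := by
    ext x
    simp only [mem_filter, mem_univ, true_and, mem_compl, hW, not_lt]
    constructor
    · intro h
      by_contra h'
      push Not at h'
      have := hmax x (by simp [hW, h'])
      linarith
    · intro h
      linarith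
  have h3 : f x₁ ∈ T := by
    rw [hT, mem_filter]
    refine ⟨mem_image_of_mem _ (mem_univ _), ?_⟩
    rw [h2, card_compl]
    omega
  have := min'_le T _ h3
  linarith

omit [DecidableEq V] in
lemma spread_ge (u : V → ℝ) (hu : ∀ x, 0 ≤ u x)
    (hcard : 2 * (univ.filter fun x => 0 < u x).card ≤ Fintype.card V) :
    (Fintype.card V : ℝ) * ∑ x, u x ≤ ∑ x, ∑ y, |u x - u y| := by
  classical
  set Z := univ.filter fun x => ¬ 0 < u x with hZ
  have hZ0 : ∀ x ∈ Z, u x = 0 := by
    intro x hx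
    simp only [hZ, mem_filter, mem_univ, true_and, not_lt] at hx
    exact le_antisymm hx (hu x)
  have hZc : (Fintype.card V : ℝ) ≤ 2 * (Z.card : ℝ) := by
    have h1 := card_filter_add_card_filter_not (s := (univ : Finset V)) (fun x => 0 < u x)
    rw [card_univ] at h1
    have h2 : Fintype.card V ≤ 2 * Z.card := by
      rw [hZ]; omega
    exact_mod_cast h2
  have hS : 0 ≤ ∑ x, u x := sum_nonneg fun x _ => hu x
  have h1 : ∀ x y, (if y ∈ Z then u x else 0) + (if x ∈ Z then u y else 0) ≤ |u x - u y| := by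
    intro x y
    by_cases hx : x ∈ Z <;> by_cases hy : y ∈ Z
    · simp [hx, hy, hZ0 x hx, hZ0 y hy]
    · simp only [hx, hy, if_true, if_false, zero_add, hZ0 x hx, zero_sub, abs_neg]
      exact le_abs_self _
    · simp only [hx, hy, if_true, if_false, add_zero, hZ0 y hy, sub_zero]
      exact le_abs_self _
    · simp only [hx, hy, if_false, add_zero]
      exact abs_nonneg _
  calc (Fintype.card V : ℝ) * ∑ x, u x ≤ 2 * (Z.card : ℝ) * ∑ x, u x :=
        mul_le_mul_of_nonneg_right hZc hS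
    _ = ∑ x, ∑ y, ((if y ∈ Z then u x else 0) + (if x ∈ Z then u y else 0)) := by
        simp only [sum_add_distrib]
        have e1 : ∑ x, ∑ y, (if y ∈ Z then u x else 0) = (Z.card : ℝ) * ∑ x, u x := by
          rw [mul_sum]
          refine sum_congr rfl fun x _ => ?_
          rw [← sum_filter, sum_const, nsmul_eq_mul]
          simp
        have e2 : ∑ x, ∑ y, (if x ∈ Z then u y else 0) = (Z.card : ℝ) * ∑ x, u x := by
          rw [sum_comm]
          exact e1
        rw [e1, e2]
        ring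
    _ ≤ ∑ x, ∑ y, |u x - u y| := sum_le_sum fun x _ => sum_le_sum fun y _ => h1 x y

/-- one side -/
lemma cheeger_half {c w : V → V → ℝ} (hc : ∀ i j, 0 ≤ c i j) (hs : ∀ i j, c i j = c j i)
    (hw0 : ∀ i j, 0 ≤ w i j) (hws : ∀ i j, w i j = w j i) (hwc : ∀ i j, w i j ≤ c i j)
    {L : ℝ} (hL : ∀ x, ∑ y, w x y ≤ L) (p : V → ℝ) (hp : ∀ x, 0 ≤ p x)
    (hcard : 2 * (univ.filter fun x => 0 < p x).card ≤ Fintype.card V)
    (hsep : ∀ x y, p x ≠ p y → c x y = w x y) :
    phi c ^ 2 * (Fintype.card V : ℝ) ^ 2 * ∑ x, p x ^ 2 ≤ 4 * L * qf c p := by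
  classical
  set n : ℝ := (Fintype.card V : ℝ) with hn
  set S : ℝ := ∑ x, p x ^ 2 with hS
  have hS0 : 0 ≤ S := sum_nonneg fun x _ => sq_nonneg _
  have hq0 : 0 ≤ qf c p := sum_nonneg fun x _ => sum_nonneg fun y _ =>
    mul_nonneg (hc x y) (sq_nonneg _)
  rcases isEmpty_or_nonempty V with he | ⟨⟨x₀⟩⟩
  · have h1 : S = 0 := by rw [hS]; simp
    have h2 : qf c p = 0 := by unfold qf; simp
    rw [h1, h2]; simp
  have hL0 : 0 ≤ L := (sum_nonneg fun y _ => hw0 x₀ y).trans (hL x₀)
  have hphi := phi_nonneg hc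
  have h1 : n * S ≤ ∑ x, ∑ y, |p x ^ 2 - p y ^ 2| := by
    refine spread_ge (fun x => p x ^ 2) (fun x => sq_nonneg _) ?_
    have : (univ.filter fun x => 0 < p x ^ 2) = univ.filter fun x => 0 < p x := by
      ext x
      simp only [mem_filter, mem_univ, true_and]
      constructor
      · intro h
        rcases (hp x).eq_or_lt with e | e
        · rw [← e] at h; simp at h
        · exact e
      · intro h; positivity
    rw [this]
    exact hcard
  have h2 := coarea hc hs (fun x => p x ^ 2)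
  have h3 : ∑ x, ∑ y, c x y * |p x ^ 2 - p y ^ 2| = ∑ x, ∑ y, w x y * |p x ^ 2 - p y ^ 2| := by
    refine sum_congr rfl fun x _ => sum_congr rfl fun y _ => ?_
    by_cases h : p x = p y
    · rw [h]; simp
    · rw [hsep x y h]
  -- Cauchy-Schwarz
  have h4 : (∑ x, ∑ y, w x y * |p x ^ 2 - p y ^ 2|) ^ 2 ≤
      (∑ x, ∑ y, w x y * (p x - p y) ^ 2) * (∑ x, ∑ y, w x y * (p x + p y) ^ 2) := by
    have e1 : ∑ x, ∑ y, w x y * |p x ^ 2 - p y ^ 2| = ∑ z : V × V,
        (Real.sqrt (w z.1 z.2) * |p z.1 - p z.2|) * (Real.sqrt (w z.1 z.2) * |p z.1 + p z.2|) := by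
      rw [Fintype.sum_prod_type]
      refine sum_congr rfl fun x _ => sum_congr rfl fun y _ => ?_
      have e2 : p x ^ 2 - p y ^ 2 = (p x - p y) * (p x + p y) := by ring
      rw [e2, abs_mul]
      have := Real.mul_self_sqrt (hw0 x y)
      calc w x y * (|p x - p y| * |p x + p y|)
          = (Real.sqrt (w x y) * Real.sqrt (w x y)) * (|p x - p y| * |p x + p y|) := by rw [this]
        _ = _ := by ring
    have e3 : ∀ g : V → V → ℝ, ∑ x, ∑ y, w x y * g x y ^ 2 =
        ∑ z : V × V, (Real.sqrt (w z.1 z.2) * |g z.1 z.2|) ^ 2 := by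
      intro g
      rw [Fintype.sum_prod_type]
      refine sum_congr rfl fun x _ => sum_congr rfl fun y _ => ?_
      rw [mul_pow, Real.sq_sqrt (hw0 x y), sq_abs]
    rw [e1, e3 (fun x y => p x - p y), e3 (fun x y => p x + p y)]
    exact sum_mul_sq_le_sq_mul_sq _ _ _
  have h5 : ∑ x, ∑ y, w x y * (p x - p y) ^ 2 ≤ qf c p :=
    sum_le_sum fun x _ => sum_le_sum fun y _ =>
      mul_le_mul_of_nonneg_right (hwc x y) (sq_nonneg _)
  have h6 : ∑ x, ∑ y, w x y * (p x + p y) ^ 2 ≤ 4 * L * S := by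
    have e1 : ∀ x y, w x y * (p x + p y) ^ 2 ≤ 2 * (w x y * p x ^ 2) + 2 * (w y x * p y ^ 2) := by
      intro x y
      rw [hws y x]
      have : (p x + p y) ^ 2 ≤ 2 * p x ^ 2 + 2 * p y ^ 2 := by nlinarith [sq_nonneg (p x - p y)]
      have := mul_le_mul_of_nonneg_left this (hw0 x y)
      linarith
    have e2 : ∑ x, ∑ y, w x y * p x ^ 2 ≤ L * S := by
      rw [hS, mul_sum]
      refine sum_le_sum fun x _ => ?_
      rw [← sum_mul]
      exact mul_le_mul_of_nonneg_right (hL x) (sq_nonneg _)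
    calc ∑ x, ∑ y, w x y * (p x + p y) ^ 2
        ≤ ∑ x, ∑ y, (2 * (w x y * p x ^ 2) + 2 * (w y x * p y ^ 2)) :=
          sum_le_sum fun x _ => sum_le_sum fun y _ => e1 x y
      _ = 2 * ∑ x, ∑ y, w x y * p x ^ 2 + 2 * ∑ x, ∑ y, w y x * p y ^ 2 := by
          simp only [sum_add_distrib, mul_sum]
      _ = 4 * ∑ x, ∑ y, w x y * p x ^ 2 := by
          rw [sum_comm (f := fun x y => w y x * p y ^ 2)]
          ring
      _ ≤ 4 * L * S := by linarith
  have hw1 : 0 ≤ ∑ x, ∑ y, w x y * |p x ^ 2 - p y ^ 2| :=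
    sum_nonneg fun x _ => sum_nonneg fun y _ => mul_nonneg (hw0 x y) (abs_nonneg _)
  have h7 : phi c * (n * S) ≤ ∑ x, ∑ y, w x y * |p x ^ 2 - p y ^ 2| := by
    rw [← h3]
    exact (mul_le_mul_of_nonneg_left h1 hphi).trans h2
  have hn0 : 0 ≤ n := Nat.cast_nonneg _
  have h8 : (phi c * (n * S)) ^ 2 ≤ qf c p * (4 * L * S) := by
    calc (phi c * (n * S)) ^ 2 ≤ (∑ x, ∑ y, w x y * |p x ^ 2 - p y ^ 2|) ^ 2 :=
          pow_le_pow_left₀ (by positivity) h7 2
      _ ≤ _ := h4
      _ ≤ qf c p * (4 * L * S) := by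
          apply mul_le_mul h5 h6 _ hq0
          exact sum_nonneg fun x _ => sum_nonneg fun y _ => mul_nonneg (hw0 x y) (sq_nonneg _)
  rcases hS0.eq_or_lt with h | h
  · rw [← h, mul_zero]
    positivity
  · have h9 : (phi c ^ 2 * n ^ 2 * S) * S ≤ (4 * L * qf c p) * S := by
      calc (phi c ^ 2 * n ^ 2 * S) * S = (phi c * (n * S)) ^ 2 := by ring
        _ ≤ _ := h8
        _ = (4 * L * qf c p) * S := by ring
    exact le_of_mul_le_mul_right h9 h

/-- **Cheeger's inequality**, `w` the capacities of the separated pairs. -/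
theorem cheeger [Nonempty V] {c w : V → V → ℝ} (hc : ∀ i j, 0 ≤ c i j)
    (hs : ∀ i j, c i j = c j i)
    (hw0 : ∀ i j, 0 ≤ w i j) (hws : ∀ i j, w i j = w j i) (hwc : ∀ i j, w i j ≤ c i j)
    {L : ℝ} (hL : ∀ x, ∑ y, w x y ≤ L) (f : V → ℝ)
    (hsep : ∀ x y, f x ≠ f y → c x y = w x y) :
    phi c ^ 2 * (Fintype.card V : ℝ) * sp f ≤ 8 * L * qf c f := by
  classical
  obtain ⟨m, hm1, hm2⟩ := exists_median f
  set n : ℝ := (Fintype.card V : ℝ) with hn
  have hn0 : 0 ≤ n := Nat.cast_nonneg _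
  obtain ⟨x₀⟩ := ‹Nonempty V›
  have hL0 : 0 ≤ L := (sum_nonneg fun y _ => hw0 x₀ y).trans (hL x₀)
  set p : V → ℝ := fun x => max (f x - m) 0 with hp
  set q : V → ℝ := fun x => max (m - f x) 0 with hq
  have hP := cheeger_half hc hs hw0 hws hwc hL p (fun x => le_max_right _ _)
    (by
      have : (univ.filter fun x => 0 < p x) = univ.filter fun x => m < f x := by
        ext x
        simp only [mem_filter, mem_univ, true_and, hp, lt_max_iff, lt_irrefl, or_false, sub_pos]
      rw [this]; exact hm1)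
    (fun x y h => hsep x y (fun e => h (by simp only [hp, e])))
  have hQ := cheeger_half hc hs hw0 hws hwc hL q (fun x => le_max_right _ _)
    (by
      have : (univ.filter fun x => 0 < q x) = univ.filter fun x => f x < m := by
        ext x
        simp only [mem_filter, mem_univ, true_and, hq, lt_max_iff, lt_irrefl, or_false, sub_pos]
      rw [this]; exact hm2)
    (fun x y h => hsep x y (fun e => h (by simp only [hq, e])))
  have h1 : qf c p + qf c q ≤ qf c f := by
    unfold qf
    rw [← sum_add_distrib]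
    refine sum_le_sum fun x _ => ?_
    rw [← sum_add_distrib]
    refine sum_le_sum fun y _ => ?_
    rw [← mul_add]
    refine mul_le_mul_of_nonneg_left ?_ (hc x y)
    simp only [hp, hq]
    rcases le_total (f x) m with h | h <;> rcases le_total (f y) m with h' | h'
    · rw [max_eq_right (by linarith : f x - m ≤ 0), max_eq_right (by linarith : f y - m ≤ 0),
        max_eq_left (by linarith : (0:ℝ) ≤ m - f x), max_eq_left (by linarith : (0:ℝ) ≤ m - f y)]
      nlinarith
    · rw [max_eq_right (by linarith : f x - m ≤ 0), max_eq_left (by linarith : (0:ℝ) ≤ f y - m),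
        max_eq_left (by linarith : (0:ℝ) ≤ m - f x), max_eq_right (by linarith : m - f y ≤ 0)]
      nlinarith [mul_nonneg (sub_nonneg.2 h) (sub_nonneg.2 h')]
    · rw [max_eq_left (by linarith : (0:ℝ) ≤ f x - m), max_eq_right (by linarith : f y - m ≤ 0),
        max_eq_right (by linarith : m - f x ≤ 0), max_eq_left (by linarith : (0:ℝ) ≤ m - f y)]
      nlinarith [mul_nonneg (sub_nonneg.2 h) (sub_nonneg.2 h')]
    · rw [max_eq_left (by linarith : (0:ℝ) ≤ f x - m), max_eq_left (by linarith : (0:ℝ) ≤ f y - m),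
        max_eq_right (by linarith : m - f x ≤ 0), max_eq_right (by linarith : m - f y ≤ 0)]
      nlinarith
  have h2 : ∑ x, p x ^ 2 + ∑ x, q x ^ 2 = ∑ x, (f x - m) ^ 2 := by
    rw [← sum_add_distrib]
    refine sum_congr rfl fun x _ => ?_
    simp only [hp, hq]
    rcases le_total (f x) m with h | h
    · rw [max_eq_right (by linarith : f x - m ≤ 0), max_eq_left (by linarith : (0:ℝ) ≤ m - f x)]
      ring
    · rw [max_eq_left (by linarith : (0:ℝ) ≤ f x - m), max_eq_right (by linarith : m - f x ≤ 0)]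
      ring
  have h3 : sp f ≤ 2 * n * ∑ x, (f x - m) ^ 2 := by
    have e : sp f = sp (fun x => f x - m) := by
      unfold sp
      refine sum_congr rfl fun x _ => sum_congr rfl fun y _ => ?_
      ring
    rw [e, sp_eq]
    nlinarith [sq_nonneg (∑ x, (f x - m))]
  have h4 : phi c ^ 2 * n ^ 2 * ∑ x, (f x - m) ^ 2 ≤ 4 * L * qf c f := by
    rw [← h2, mul_add]
    calc _ ≤ 4 * L * qf c p + 4 * L * qf c q := add_le_add hP hQ
      _ = 4 * L * (qf c p + qf c q) := by ring
      _ ≤ 4 * L * qf c f := mul_le_mul_of_nonneg_left h1 (by positivity)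
  calc phi c ^ 2 * n * sp f ≤ phi c ^ 2 * n * (2 * n * ∑ x, (f x - m) ^ 2) :=
        mul_le_mul_of_nonneg_left h3 (by positivity)
    _ = 2 * (phi c ^ 2 * n ^ 2 * ∑ x, (f x - m) ^ 2) := by ring
    _ ≤ 2 * (4 * L * qf c f) := by linarith
    _ = 8 * L * qf c f := by ring

end Vale.Agent.P318.R2.H858
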