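import Vale.Agent.P318.R2.H858.Gap

/-!
# Averaging a semimetric over the classes of a coherent configuration
-/

open Finset

namespace Vale.Agent.P318.R2.H858

open Vale.Agent.P318.H867

variable {V : Type*} [Fintype V] [DecidableEq V]

/-- A colouring of the ordered pairs of points is coherent (stable under two-dimensional
Weisfeiler-Leman refinement, its classes form a coherent configuration): the colours of the
diagonal are not used elsewhere, the colour of `(x, y)` determines the colour of `(y, x)`, and for
all colours `i, j` the number of `z` such that `(x, z)` has colour `i` and `(z, y)` has colour `j`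
depends only on the colour of `(x, y)`. -/
structure IsCoherent {V κ : Type*} [Fintype V] [DecidableEq κ] (col : V → V → κ) : Prop where
  diag : ∀ x y z, col x x = col y z → y = z
  symm : ∀ x y x' y', col x y = col x' y' → col y x = col y' x'
  inter : ∀ x y x' y', col x y = col x' y' → ∀ i j,
    (univ.filter fun z => col x z = i ∧ col z y = j).card =
      (univ.filter fun z => col x' z = i ∧ col z y' = j).card

variable {κ : Type*} [DecidableEq κ]

/-- size of a class -/
def cn (col : V → V → κ) (k : κ) : ℝ := ∑ x, ∑ y, if col x y = k then (1 : ℝ) else 0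

/-- sum of `d` over a class -/
def cs (col : V → V → κ) (d : V → V → ℝ) (k : κ) : ℝ :=
  ∑ x, ∑ y, if col x y = k then d x y else 0

/-- average of `d` over a class -/
noncomputable def av (col : V → V → κ) (d : V → V → ℝ) (k : κ) : ℝ := cs col d k / cn col k

omit [DecidableEq V] in
lemma cn_pos (col : V → V → κ) (x y : V) : 0 < cn col (col x y) := by
  unfold cn
  refine sum_pos' (fun i _ => sum_nonneg fun j _ => by split_ifs <;> norm_num) ⟨x, mem_univ _, ?_⟩
  refine sum_pos' (fun j _ => by split_ifs <;> norm_num) ⟨y, mem_univ _, ?_⟩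
  simp

omit [DecidableEq V] in
/-- sums of `d` against class functions are unchanged -/
lemma sum_av (col : V → V → κ) (d w : V → V → ℝ)
    (hw : ∀ x y x' y', col x y = col x' y' → w x y = w x' y') :
    ∑ x, ∑ y, w x y * av col d (col x y) = ∑ x, ∑ y, w x y * d x y := by
  have h1 : ∀ x y, w x y * av col d (col x y) =
      ∑ x', ∑ y', if col x' y' = col x y then w x' y' * d x' y' / cn col (col x' y') else 0 := by
    intro x y
    unfold av cs
    rw [sum_div, mul_sum]
    refine sum_congr rfl fun x' _ => ?_
    rw [sum_div, mul_sum]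
    refine sum_congr rfl fun y' _ => ?_
    split_ifs with h
    · rw [hw x' y' x y h, h]; ring
    · simp
  simp_rw [h1]
  have h2 : ∑ x, ∑ y, ∑ x', ∑ y', (if col x' y' = col x y then
      w x' y' * d x' y' / cn col (col x' y') else 0) =
      ∑ x', ∑ y', ∑ x, ∑ y, (if col x' y' = col x y then
      w x' y' * d x' y' / cn col (col x' y') else 0) := by
    rw [sum_congr rfl fun x _ => sum_comm]
    rw [sum_comm]
    refine sum_congr rfl fun x' _ => ?_
    rw [sum_congr rfl fun x _ => sum_comm]
    rw [sum_comm]
  rw [h2]
  refine sum_congr rfl fun x' _ => sum_congr rfl fun y' _ => ?_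
  have h3 : ∑ x, ∑ y, (if col x' y' = col x y then
      w x' y' * d x' y' / cn col (col x' y') else 0) =
      w x' y' * d x' y' / cn col (col x' y') * cn col (col x' y') := by
    generalize w x' y' * d x' y' / cn col (col x' y') = q
    unfold cn
    rw [mul_sum]
    refine sum_congr rfl fun x _ => ?_
    rw [mul_sum]
    refine sum_congr rfl fun y _ => ?_
    by_cases h : col x' y' = col x y
    · rw [if_pos h, if_pos h.symm, mul_one]
    · rw [if_neg h, if_neg (Ne.symm h), mul_zero]
  rw [h3, div_mul_cancel₀ _ (cn_pos col x' y').ne']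

omit [DecidableEq V] in
lemma av_diag {col : V → V → κ} (hcol : IsCoherent col) {d : V → V → ℝ} (h0 : ∀ i, d i i = 0)
    (x : V) : av col d (col x x) = 0 := by
  unfold av cs
  rw [sum_eq_zero, zero_div]
  intro y _
  refine sum_eq_zero fun z _ => ?_
  split_ifs with h
  · rw [hcol.diag x y z h.symm, h0]
  · rfl

omit [DecidableEq V] in
lemma av_symm {col : V → V → κ} (hcol : IsCoherent col) {d : V → V → ℝ}
    (hsy : ∀ i j, d i j = d j i) (x y : V) : av col d (col x y) = av col d (col y x) := by
  have hiff : ∀ a b, col a b = col x y ↔ col b a = col y x := fun a b =>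
    ⟨fun h => hcol.symm _ _ _ _ h, fun h => hcol.symm _ _ _ _ h⟩
  have h1 : cs col d (col x y) = cs col d (col y x) := by
    unfold cs
    rw [sum_comm]
    refine sum_congr rfl fun a _ => sum_congr rfl fun b _ => ?_
    by_cases h : col a b = col y x
    · rw [if_pos h, if_pos ((hiff b a).2 h), hsy]
    · rw [if_neg h, if_neg (fun h' => h ((hiff b a).1 h'))]
  have h2 : cn col (col x y) = cn col (col y x) := by
    unfold cn
    rw [sum_comm]
    refine sum_congr rfl fun a _ => sum_congr rfl fun b _ => ?_
    by_cases h : col a b = col y x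
    · rw [if_pos h, if_pos ((hiff b a).2 h)]
    · rw [if_neg h, if_neg (fun h' => h ((hiff b a).1 h'))]
  unfold av
  rw [h1, h2]

omit [DecidableEq V] in
/-- sums over the triples of a given type, of a function of the first and last point -/
lemma triple_sum {col : V → V → κ} (hcol : IsCoherent col) (w : V → V → ℝ) (x z : V) (i j : κ) :
    ∑ a, ∑ c, ∑ b, (if col a c = col x z ∧ col a b = i ∧ col b c = j then w a c else 0) =
      ((univ.filter fun b => col x b = i ∧ col b z = j).card : ℝ) *
        cs col w (col x z) := by
  unfold cs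
  rw [mul_sum]
  refine sum_congr rfl fun a _ => ?_
  rw [mul_sum]
  refine sum_congr rfl fun c _ => ?_
  by_cases h : col a c = col x z
  · simp only [h, true_and, if_true]
    rw [← sum_filter, sum_const, nsmul_eq_mul, hcol.inter a c x z h i j]
  · simp [h]

omit [DecidableEq V] in
lemma av_tri {col : V → V → κ} (hcol : IsCoherent col) {d : V → V → ℝ}
    (htr : ∀ i j k, d i k ≤ d i j + d j k) (x y z : V) :
    av col d (col x z) ≤ av col d (col x y) + av col d (col y z) := by
  classical
  set P : V → V → V → Prop := fun a b c => col a c = col x z ∧ col a b = col x y ∧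
    col b c = col y z with hP
  -- the three ways of summing
  have e1 : ∀ w : V → V → ℝ, ∑ a, ∑ b, ∑ c, (if P a b c then w a c else 0) =
      ((univ.filter fun b => col x b = col x y ∧ col b z = col y z).card : ℝ) *
        cs col w (col x z) := by
    intro w
    rw [← triple_sum hcol w x z (col x y) (col y z)]
    refine sum_congr rfl fun a _ => ?_
    rw [sum_comm]
  have e2 : ∀ w : V → V → ℝ, ∑ a, ∑ b, ∑ c, (if P a b c then w a b else 0) =
      ((univ.filter fun b => col x b = col x z ∧ col b y = col z y).card : ℝ) *
        cs col w (col x y) := by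
    intro w
    rw [← triple_sum hcol w x y (col x z) (col z y)]
    refine sum_congr rfl fun a _ => sum_congr rfl fun b _ => sum_congr rfl fun c _ => ?_
    have : P a b c ↔ (col a b = col x y ∧ col a c = col x z ∧ col c b = col z y) := by
      simp only [hP]
      constructor
      · rintro ⟨h1, h2, h3⟩
        exact ⟨h2, h1, hcol.symm _ _ _ _ h3⟩
      · rintro ⟨h1, h2, h3⟩
        exact ⟨h2, h1, hcol.symm _ _ _ _ h3⟩
    by_cases h : P a b c
    · rw [if_pos h, if_pos (this.1 h)]
    · rw [if_neg h, if_neg (fun h' => h (this.2 h'))]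
  have e3 : ∀ w : V → V → ℝ, ∑ a, ∑ b, ∑ c, (if P a b c then w b c else 0) =
      ((univ.filter fun b => col y b = col y x ∧ col b z = col x z).card : ℝ) *
        cs col w (col y z) := by
    intro w
    rw [← triple_sum hcol w y z (col y x) (col x z)]
    have : ∀ a b c, (if P a b c then w b c else 0) = (if col b c = col y z ∧ col b a = col y x ∧
        col a c = col x z then w b c else 0) := by
      intro a b c
      have : P a b c ↔ (col b c = col y z ∧ col b a = col y x ∧ col a c = col x z) := by
        simp only [hP]
        constructor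
        · rintro ⟨h1, h2, h3⟩
          exact ⟨h3, hcol.symm _ _ _ _ h2, h1⟩
        · rintro ⟨h1, h2, h3⟩
          exact ⟨h3, hcol.symm _ _ _ _ h2, h1⟩
      by_cases h : P a b c
      · rw [if_pos h, if_pos (this.1 h)]
      · rw [if_neg h, if_neg (fun h' => h (this.2 h'))]
    simp_rw [this]
    rw [sum_comm]
    refine sum_congr rfl fun b _ => ?_
    rw [sum_comm]
  -- the number of triples
  set T : ℝ := ∑ a, ∑ b, ∑ c, (if P a b c then (1 : ℝ) else 0) with hT
  have hTpos : 0 < T := by
    rw [hT]
    refine sum_pos' (fun a _ => sum_nonneg fun b _ => sum_nonneg fun c _ => by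
      split_ifs <;> norm_num) ⟨x, mem_univ _, ?_⟩
    refine sum_pos' (fun b _ => sum_nonneg fun c _ => by split_ifs <;> norm_num)
      ⟨y, mem_univ _, ?_⟩
    refine sum_pos' (fun c _ => by split_ifs <;> norm_num) ⟨z, mem_univ _, ?_⟩
    simp [hP]
  have hcn : ∀ k, cs col (fun _ _ => (1 : ℝ)) k = cn col k := fun k => rfl
  have f1 : ∑ a, ∑ b, ∑ c, (if P a b c then d a c else 0) = T * av col d (col x z) := by
    rw [e1 d, hT, e1 (fun _ _ => 1), hcn, av]
    have := (cn_pos col x z).ne'
    field_simp
  have f2 : ∑ a, ∑ b, ∑ c, (if P a b c then d a b else 0) = T * av col d (col x y) := by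
    rw [e2 d, hT, e2 (fun _ _ => 1), hcn, av]
    have := (cn_pos col x y).ne'
    field_simp
  have f3 : ∑ a, ∑ b, ∑ c, (if P a b c then d b c else 0) = T * av col d (col y z) := by
    rw [e3 d, hT, e3 (fun _ _ => 1), hcn, av]
    have := (cn_pos col y z).ne'
    field_simp
  have hle : ∑ a, ∑ b, ∑ c, (if P a b c then d a c else 0) ≤
      ∑ a, ∑ b, ∑ c, (if P a b c then d a b else 0) +
        ∑ a, ∑ b, ∑ c, (if P a b c then d b c else 0) := by
    simp only [← sum_add_distrib]
    refine sum_le_sum fun a _ => sum_le_sum fun b _ => sum_le_sum fun c _ => ?_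
    split_ifs
    · exact htr a b c
    · simp
  rw [f1, f2, f3, ← mul_add] at hle
  exact le_of_mul_le_mul_left hle hTpos

/-- **The bound for semimetrics.** -/
theorem coherent_bound [Nontrivial V] {c : V → V → ℝ} (hc : ∀ i j, 0 ≤ c i j)
    (hs : ∀ i j, c i j = c j i) {col : V → V → κ} (hcol : IsCoherent col)
    (hcc : ∀ x y x' y', col x y = col x' y' → c x y = c x' y')
    {r : ℕ} (F : Finset κ) (hF : F.card ≤ r) (hcov : ∀ x y, x ≠ y → col x y ∈ F ∨ col y x ∈ F)
    {d : V → V → ℝ} (h0 : ∀ i, d i i = 0) (hsy : ∀ i j, d i j = d j i)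
    (htr : ∀ i j k, d i k ≤ d i j + d j k) :
    phi c * ∑ i, ∑ j, d i j ≤ 9 * r * ∑ i, ∑ j, c i j * d i j := by
  classical
  have h := few_distances hc hs (d := fun x y => av col d (col x y)) (av_diag hcol h0)
    (av_symm hcol hsy) (av_tri hcol htr) (r := r) (F.image (av col d))
    (card_image_le.trans hF) (by
      intro i j hij
      rcases hcov i j hij with h | h
      · exact mem_image_of_mem _ h
      · show av col d (col i j) ∈ _
        rw [av_symm hcol hsy]
        exact mem_image_of_mem _ h)
  have h1 := sum_av col d (fun _ _ => 1) (fun _ _ _ _ _ => rfl)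
  simp only [one_mul] at h1
  have h2 := sum_av col d c hcc
  rw [h1, h2] at h
  exact h

end Vale.Agent.P318.R2.H858
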