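import Vale.Agent.P318.R2.H858.Cheeger

/-!
# Commutative coherent configurations: the bound of order `sqrt r`
-/

open Finset Matrix

namespace Vale.Agent.P318.R2.H858

open Vale.Agent.P318.H867

variable {V : Type*} [Fintype V] [DecidableEq V] {κ : Type*} [DecidableEq κ]

/-- the intersection numbers are symmetric in the two lower indices -/
def IsCommCol {V κ : Type*} [Fintype V] [DecidableEq κ] (col : V → V → κ) : Prop :=
  ∀ x y i j, (univ.filter fun z => col x z = i ∧ col z y = j).card =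
    (univ.filter fun z => col x z = j ∧ col z y = i).card

omit [DecidableEq V] in
lemma mul_key {col : V → V → κ} {A B : Matrix V V ℝ} {α β : κ → ℝ}
    (hα : ∀ x y, A x y = α (col x y)) (hβ : ∀ x y, B x y = β (col x y)) (x y : V) :
    (A * B) x y = ∑ p ∈ ((univ : Finset (V × V)).image (fun p => col p.1 p.2)) ×ˢ
      ((univ : Finset (V × V)).image (fun p => col p.1 p.2)),
      ((univ.filter fun z => col x z = p.1 ∧ col z y = p.2).card : ℝ) * (α p.1 * β p.2) := by
  classical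
  set U : Finset κ := (univ : Finset (V × V)).image (fun p => col p.1 p.2) with hU
  have hmem : ∀ x y, col x y ∈ U := fun x y =>
    mem_image.2 ⟨(x, y), mem_univ _, rfl⟩
  rw [Matrix.mul_apply]
  rw [← sum_fiberwise_of_maps_to (s := univ) (t := U ×ˢ U) (g := fun z => (col x z, col z y))
    (fun z _ => mem_product.2 ⟨hmem _ _, hmem _ _⟩)]
  refine sum_congr rfl fun p _ => ?_
  have e : (univ.filter fun z => (col x z, col z y) = p) =
      (univ.filter fun z => col x z = p.1 ∧ col z y = p.2) := by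
    ext z; simp [Prod.ext_iff]
  rw [e]
  rw [← nsmul_eq_mul, ← sum_const]
  refine sum_congr rfl fun z hz => ?_
  simp only [mem_filter, mem_univ, true_and] at hz
  rw [hα, hβ, hz.1, hz.2]

omit [DecidableEq V] in
lemma InAlg.comm {col : V → V → κ} (hcomm : IsCommCol col) {A B : Matrix V V ℝ}
    (hA : InAlg col A) (hB : InAlg col B) : A * B = B * A := by
  obtain ⟨α, hα⟩ := hA.factor
  obtain ⟨β, hβ⟩ := hB.factor
  ext x y
  rw [mul_key hα hβ, mul_key hβ hα, sum_product, sum_product, sum_comm]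
  refine sum_congr rfl fun j _ => sum_congr rfl fun i _ => ?_
  simp only
  rw [hcomm x y i j]
  ring

omit [DecidableEq V] in
/-- row sums are constant -/
lemma row_const {col : V → V → κ} (hcomm : IsCommCol col) {A : Matrix V V ℝ}
    (hA : InAlg col A) (x y : V) : ∑ z, A x z = ∑ z, A y z := by
  have hone : InAlg col (Matrix.of fun _ _ => (1 : ℝ)) := fun _ _ _ _ _ => rfl
  have h := InAlg.comm hcomm hA hone
  have h1 := congrFun (congrFun h x) x
  have h2 := congrFun (congrFun h y) x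
  simp only [Matrix.mul_apply, Matrix.of_apply, mul_one, one_mul] at h1 h2
  rw [h1, h2]

/-- the relation generated by the pairs at distance less than `g` -/
def Near (δ : V → V → ℝ) (g : ℝ) : V → V → Prop := Relation.ReflTransGen fun x y => δ x y < g

omit [DecidableEq V] in
lemma near_class {col : V → V → κ} (hcol : IsCoherent col) {δ : V → V → ℝ}
    (hδ : ∀ x y x' y', col x y = col x' y' → δ x y = δ x' y') {g : ℝ} {x y : V}
    (h : Near δ g x y) : ∀ x' y', col x y = col x' y' → Near δ g x' y' := by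
  induction h with
  | refl =>
    intro x' y' h
    rw [hcol.diag x x' y' h]
    exact Relation.ReflTransGen.refl
  | tail hxz hzy ih =>
    rename_i z y
    intro x' y' h
    have h1 := hcol.inter x y x' y' h (col x z) (col z y)
    have h2 : 0 < (univ.filter fun b => col x b = col x z ∧ col b y = col z y).card :=
      card_pos.2 ⟨z, by simp⟩
    rw [h1] at h2
    obtain ⟨z', hz'⟩ := card_pos.1 h2
    simp only [mem_filter, mem_univ, true_and] at hz'
    refine Relation.ReflTransGen.tail (ih x' z' hz'.1.symm) ?_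
    rw [hδ z' y' z y hz'.2]
    exact hzy

omit [Fintype V] [DecidableEq V] in
lemma near_symm {δ : V → V → ℝ} (hsy : ∀ i j, δ i j = δ j i) {g : ℝ} {x y : V}
    (h : Near δ g x y) : Near δ g y x := by
  induction h with
  | refl => exact Relation.ReflTransGen.refl
  | tail _ hzy ih =>
    refine Relation.ReflTransGen.head ?_ ih
    rw [hsy]
    exact hzy

omit [Fintype V] [DecidableEq V] in
/-- within a block the distances are at most `a` -/
lemma near_le {δ : V → V → ℝ} (h0 : ∀ i, δ i i = 0) (htr : ∀ i j k, δ i k ≤ δ i j + δ j k)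
    {a g : ℝ} (ha : 0 ≤ a) (hgap : ∀ i j, δ i j ≤ a ∨ a + g ≤ δ i j) {x y : V}
    (h : Near δ g x y) : δ x y ≤ a := by
  induction h with
  | refl => rw [h0]; exact ha
  | tail hxz hzy ih =>
    rename_i z y
    rcases hgap x y with h1 | h1
    · exact h1
    · have := htr x z y
      linarith

/-- the quadratic form as a matrix product -/
lemma qf_eq {c : V → V → ℝ} (hs : ∀ i j, c i j = c j i) (f : V → ℝ) :
    qf c f = 2 * (f ⬝ᵥ (lap c *ᵥ f)) := by
  have := lap_form hs f
  unfold qf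
  simp only [dotProduct]
  linarith

/-- projection onto the block constant functions does not increase the energy -/
lemma energy_proj {c : V → V → ℝ} (hc : ∀ i j, 0 ≤ c i j) (hs : ∀ i j, c i j = c j i)
    {P : Matrix V V ℝ} (hPs : Pᵀ = P) (hPP : P * P = P) (hcomm : P * lap c = lap c * P)
    (f : V → ℝ) : qf c (P *ᵥ f) ≤ qf c f := by
  have hpos : 0 ≤ qf c (f - P *ᵥ f) :=
    sum_nonneg fun x _ => sum_nonneg fun y _ => mul_nonneg (hc x y) (sq_nonneg _)
  rw [qf_eq hs] at hpos ⊢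
  rw [qf_eq hs]
  have hsw : ∀ u v : V → ℝ, (P *ᵥ u) ⬝ᵥ v = u ⬝ᵥ (P *ᵥ v) := by
    intro u v
    rw [Matrix.dotProduct_mulVec, ← Matrix.vecMul_transpose, hPs]
  have e1 : (P *ᵥ f) ⬝ᵥ (lap c *ᵥ (P *ᵥ f)) = f ⬝ᵥ ((lap c * P) *ᵥ f) := by
    rw [hsw, Matrix.mulVec_mulVec, Matrix.mulVec_mulVec, hcomm, Matrix.mul_assoc, hPP]
  have e2 : (P *ᵥ f) ⬝ᵥ (lap c *ᵥ f) = f ⬝ᵥ ((lap c * P) *ᵥ f) := by
    rw [hsw, Matrix.mulVec_mulVec, hcomm]
  have e3 : f ⬝ᵥ (lap c *ᵥ (P *ᵥ f)) = f ⬝ᵥ ((lap c * P) *ᵥ f) := by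
    rw [Matrix.mulVec_mulVec]
  rw [Matrix.mulVec_sub, sub_dotProduct, dotProduct_sub, dotProduct_sub, e1, e2, e3] at hpos
  rw [e1]
  linarith

omit [DecidableEq V] in
/-- the loss of spread -/
lemma spread_proj {P : Matrix V V ℝ} (hPs : Pᵀ = P) (hPP : P * P = P)
    (hP1 : ∀ x, ∑ y, P x y = 1) (f : V → ℝ) :
    sp f - sp (P *ᵥ f) = (Fintype.card V : ℝ) * ∑ x, ∑ y, P x y * (f x - f y) ^ 2 := by
  have hsw : ∀ u v : V → ℝ, (P *ᵥ u) ⬝ᵥ v = u ⬝ᵥ (P *ᵥ v) := by
    intro u v
    rw [Matrix.dotProduct_mulVec, ← Matrix.vecMul_transpose, hPs]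
  have hsym : ∀ x y, P x y = P y x := fun x y => by
    conv_lhs => rw [← hPs]
    rfl
  have hsum : ∑ x, (P *ᵥ f) x = ∑ x, f x := by
    simp only [Matrix.mulVec, dotProduct]
    rw [sum_comm]
    refine sum_congr rfl fun y _ => ?_
    rw [← sum_mul]
    have : ∑ x, P x y = 1 := by
      rw [← hP1 y]
      exact sum_congr rfl fun x _ => hsym x y
    rw [this, one_mul]
  have hsq : ∑ x, (P *ᵥ f) x ^ 2 = f ⬝ᵥ (P *ᵥ f) := by
    have : ∑ x, (P *ᵥ f) x ^ 2 = (P *ᵥ f) ⬝ᵥ (P *ᵥ f) := by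
      simp only [dotProduct, sq]
    rw [this, hsw, Matrix.mulVec_mulVec, hPP]
  have hexp : ∑ x, ∑ y, P x y * (f x - f y) ^ 2 = 2 * ∑ x, f x ^ 2 - 2 * (f ⬝ᵥ (P *ᵥ f)) := by
    have e1 : ∑ x, ∑ y, P x y * f x ^ 2 = ∑ x, f x ^ 2 := by
      refine sum_congr rfl fun x _ => ?_
      rw [← sum_mul, hP1, one_mul]
    have e2 : ∑ x, ∑ y, P x y * f y ^ 2 = ∑ x, f x ^ 2 := by
      rw [sum_comm, ← e1]
      refine sum_congr rfl fun x _ => sum_congr rfl fun y _ => ?_
      rw [hsym]
    have e3 : ∑ x, ∑ y, P x y * (f x * f y) = f ⬝ᵥ (P *ᵥ f) := by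
      simp only [Matrix.mulVec, dotProduct, mul_sum]
      refine sum_congr rfl fun x _ => sum_congr rfl fun y _ => ?_
      ring
    have e4 : ∀ x y, P x y * (f x - f y) ^ 2 =
        P x y * f x ^ 2 + P x y * f y ^ 2 - 2 * (P x y * (f x * f y)) := fun x y => by ring
    simp_rw [e4, sum_sub_distrib, sum_add_distrib, ← mul_sum]
    rw [e1, e2, e3]
    ring
  rw [sp_eq, sp_eq, hsum, hsq, hexp]
  ring

end Vale.Agent.P318.R2.H858
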