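import Vale.Agent.P318.H867.Cut

/-!
# A distance gap gives a cut

If a semimetric `d` with average `A` has no distance in `(a, a + g]`, `a ≤ A / 3`, then
`Φ(c) ∑ d ≤ max (9, (9/4) A / g) ∑ c d`.
-/

open Finset

namespace Vale.Agent.P318.R2.H858

open Vale.Agent.P318.H867

variable {V : Type*} [Fintype V] [DecidableEq V]

omit [Fintype V] [DecidableEq V] in
lemma d_nonneg {d : V → V → ℝ} (h0 : ∀ i, d i i = 0) (hsy : ∀ i j, d i j = d j i)
    (htr : ∀ i j k, d i k ≤ d i j + d j k) (i j : V) : 0 ≤ d i j := by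
  have := htr i j i
  rw [h0, hsy j i] at this
  linarith

/-- Growing a union of balls. -/
lemma exists_union [Nonempty V] (d : V → V → ℝ) (h0 : ∀ i, d i i = 0) {a : ℝ} (ha : 0 ≤ a) {g : ℝ}
    (htr : ∀ i j k, d i k ≤ d i j + d j k)
    (hgap : ∀ i j, d i j ≤ a ∨ a + g ≤ d i j)
    (hball : ∀ x, 3 * (univ.filter fun y => d x y ≤ a).card < Fintype.card V) :
    ∃ U : Finset V, Fintype.card V ≤ 3 * U.card ∧ 3 * U.card < 2 * Fintype.card V ∧
      ∀ u ∈ U, ∀ v, v ∉ U → g ≤ d u v := by
  classical
  set N : Finset V → Finset V := fun S => univ.filter fun y => ∃ s ∈ S, d s y ≤ a with hN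
  have huniv : Fintype.card V ≤ 3 * (N univ).card := by
    have : N univ = univ := by
      apply eq_univ_of_forall
      intro y
      simp only [hN, mem_filter, mem_univ, true_and]
      exact ⟨y, by rw [h0]; exact ha⟩
    rw [this, card_univ]
    omega
  obtain ⟨S, hS, hmin⟩ := exists_min_image (univ.filter fun S : Finset V =>
    Fintype.card V ≤ 3 * (N S).card) (fun S => S.card) ⟨univ, by simpa using huniv⟩
  simp only [mem_filter, mem_univ, true_and] at hS hmin
  have hcard : 3 * (N S).card < 2 * Fintype.card V := by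
    rcases S.eq_empty_or_nonempty with h | ⟨s, hs⟩
    · subst h
      have : N ∅ = ∅ := by simp [hN]
      rw [this, card_empty] at hS ⊢
      have hpos : 0 < Fintype.card V := Fintype.card_pos
      omega
    · have h1 : ¬ Fintype.card V ≤ 3 * (N (S.erase s)).card := by
        intro h
        have := hmin _ h
        have h2 := card_erase_lt_of_mem hs
        omega
      have h2 : N S ⊆ N (S.erase s) ∪ (univ.filter fun y => d s y ≤ a) := by
        intro y hy
        simp only [hN, mem_filter, mem_univ, true_and, mem_union] at hy ⊢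
        obtain ⟨t, ht, hty⟩ := hy
        by_cases hts : t = s
        · right; rw [← hts]; exact hty
        · left; exact ⟨t, mem_erase.2 ⟨hts, ht⟩, hty⟩
      have h3 := (card_le_card h2).trans (card_union_le _ _)
      have h4 := hball s
      omega
  refine ⟨N S, hS, hcard, ?_⟩
  intro u hu v hv
  simp only [hN, mem_filter, mem_univ, true_and, not_exists, not_and, not_le] at hu hv
  obtain ⟨s, hs, hsu⟩ := hu
  have h1 := hv s hs
  have h2 := (hgap s v).resolve_left (not_le.2 h1)
  have h3 := htr s u v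
  linarith

/-- a large ball gives a cut -/
lemma big_ball {c : V → V → ℝ} (hc : ∀ i j, 0 ≤ c i j) (hs : ∀ i j, c i j = c j i)
    {d : V → V → ℝ} (hsy : ∀ i j, d i j = d j i)
    (htr : ∀ i j k, d i k ≤ d i j + d j k) {D : ℝ} (hD : ∑ i, ∑ j, d i j = D)
    (x₀ : V) {R : ℝ} (hR : R * (Fintype.card V : ℝ) ^ 2 = D / 3)
    (hball : Fintype.card V ≤ 3 * (univ.filter fun y => d x₀ y ≤ R).card) :
    phi c * D ≤ 9 * ∑ i, ∑ j, c i j * d i j := by
  classical
  set n : ℝ := (Fintype.card V : ℝ) with hn
  have hnpos : 0 < n := by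
    have : 0 < Fintype.card V := Fintype.card_pos_iff.2 ⟨x₀⟩
    rw [hn]; exact_mod_cast this
  set B := univ.filter fun y => d x₀ y ≤ R with hB
  set f : V → ℝ := fun u => max 0 (d x₀ u - R) with hf
  have hlip : ∀ u v, |f u - f v| ≤ d u v := by
    intro u v
    have h1 := htr x₀ u v
    have h2 := htr x₀ v u
    rw [hsy v u] at h2
    have h3 : |f u - f v| ≤ |(d x₀ u - R) - (d x₀ v - R)| := by
      have := abs_max_sub_max_le_abs (d x₀ u - R) (d x₀ v - R) 0
      rwa [max_comm, max_comm (d x₀ v - R)] at this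
    refine h3.trans ?_
    rw [abs_le]
    constructor <;> linarith
  have hcoa := coarea hc hs f
  have hup : ∑ x, ∑ y, c x y * |f x - f y| ≤ ∑ i, ∑ j, c i j * d i j :=
    sum_le_sum fun i _ => sum_le_sum fun j _ =>
      mul_le_mul_of_nonneg_left (hlip i j) (hc i j)
  have hf0 : ∀ u, 0 ≤ f u := fun u => le_max_left _ _
  have hfB : ∀ u ∈ B, f u = 0 := by
    intro u hu
    simp only [hB, mem_filter, mem_univ, true_and] at hu
    exact max_eq_left (by linarith)
  -- the sum of f
  have hsum1 : D ≤ 2 * n * ∑ u, d x₀ u := by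
    rw [← hD]
    calc ∑ i, ∑ j, d i j ≤ ∑ i, ∑ j, (d x₀ i + d x₀ j) := by
          refine sum_le_sum fun i _ => sum_le_sum fun j _ => ?_
          have := htr i x₀ j
          rwa [hsy i x₀] at this
      _ = 2 * n * ∑ u, d x₀ u := by
          simp only [sum_add_distrib, sum_const, card_univ, nsmul_eq_mul, ← hn, ← mul_sum]
          ring
  have hsum2 : D / (2 * n) - n * R ≤ ∑ u, f u := by
    have h1 : ∑ u, (d x₀ u - R) ≤ ∑ u, f u := sum_le_sum fun u _ => le_max_right _ _
    rw [sum_sub_distrib, sum_const, card_univ, nsmul_eq_mul, ← hn] at h1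
    have h2 : D / (2 * n) ≤ ∑ u, d x₀ u := by
      rw [div_le_iff₀ (by positivity)]
      linarith
    linarith
  have hsum3 : D / (6 * n) ≤ ∑ u, f u := by
    refine le_trans (le_of_eq ?_) hsum2
    have : R = D / 3 / n ^ 2 := by
      rw [eq_div_iff (by positivity)]; exact hR
    rw [this]
    field_simp
    ring
  -- lower bound for the spread
  have hspread : 2 * (B.card : ℝ) * ∑ u, f u ≤ ∑ x, ∑ y, |f x - f y| := by
    have h1 : ∀ x y, (if y ∈ B then f x else 0) + (if x ∈ B then f y else 0) ≤ |f x - f y| := by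
      intro x y
      by_cases hx : x ∈ B <;> by_cases hy : y ∈ B
      · simp [hx, hy, hfB x hx, hfB y hy]
      · simp only [hx, hy, if_true, if_false, zero_add, hfB x hx, zero_sub, abs_neg]
        exact le_abs_self _
      · simp only [hx, hy, if_true, if_false, add_zero, hfB y hy, sub_zero]
        exact le_abs_self _
      · simp only [hx, hy, if_false, add_zero]
        exact abs_nonneg _
    calc 2 * (B.card : ℝ) * ∑ u, f u
        = ∑ x, ∑ y, ((if y ∈ B then f x else 0) + (if x ∈ B then f y else 0)) := by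
          simp only [sum_add_distrib]
          have e1 : ∑ x, ∑ y, (if y ∈ B then f x else 0) = (B.card : ℝ) * ∑ u, f u := by
            rw [mul_sum]
            refine sum_congr rfl fun x _ => ?_
            rw [← sum_filter, sum_const, nsmul_eq_mul]
            simp
          have e2 : ∑ x, ∑ y, (if x ∈ B then f y else 0) = (B.card : ℝ) * ∑ u, f u := by
            rw [sum_comm]
            exact e1
          rw [e1, e2]
          ring
      _ ≤ ∑ x, ∑ y, |f x - f y| := sum_le_sum fun x _ => sum_le_sum fun y _ => h1 x y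
  have hBcard : n / 3 ≤ (B.card : ℝ) := by
    rw [div_le_iff₀ (by norm_num), hn]
    have : (Fintype.card V : ℝ) ≤ ((3 * B.card : ℕ) : ℝ) := by exact_mod_cast hball
    push_cast at this
    linarith
  have hSf : 0 ≤ ∑ u, f u := sum_nonneg fun u _ => hf0 u
  have hD0 : 0 ≤ D := by
    rw [← hD]
    refine sum_nonneg fun i _ => sum_nonneg fun j _ => ?_
    have h1 := hlip i j
    exact (abs_nonneg _).trans h1
  have hfin : D / 9 ≤ ∑ x, ∑ y, |f x - f y| := by
    refine le_trans ?_ hspread
    calc D / 9 = 2 * (n / 3) * (D / (6 * n)) := by field_simp; ring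
      _ ≤ 2 * (B.card : ℝ) * ∑ u, f u := by
          apply mul_le_mul _ hsum3 (by positivity) (by positivity)
          linarith
  have hphi := phi_nonneg hc
  calc phi c * D = 9 * (phi c * (D / 9)) := by ring
    _ ≤ 9 * (phi c * ∑ x, ∑ y, |f x - f y|) := by
        have := mul_le_mul_of_nonneg_left hfin hphi
        linarith
    _ ≤ 9 * ∑ i, ∑ j, c i j * d i j := by linarith

/-- **Gap lemma.**  A semimetric without distances in `(a, a + g)`, `a` at most a third of the
average. -/
theorem gap_cut [Nonempty V] {c : V → V → ℝ} (hc : ∀ i j, 0 ≤ c i j) (hs : ∀ i j, c i j = c j i)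
    {d : V → V → ℝ} (h0 : ∀ i, d i i = 0) (hsy : ∀ i j, d i j = d j i)
    (htr : ∀ i j k, d i k ≤ d i j + d j k) {D : ℝ} (hD : ∑ i, ∑ j, d i j = D)
    {a g K : ℝ} (ha : 0 ≤ a) (hg : 0 < g)
    (haR : a * (Fintype.card V : ℝ) ^ 2 ≤ D / 3)
    (hK : 9 ≤ K) (hgK : 9 * D ≤ 4 * K * g * (Fintype.card V : ℝ) ^ 2)
    (hgap : ∀ i j, d i j ≤ a ∨ a + g ≤ d i j) :
    phi c * D ≤ K * ∑ i, ∑ j, c i j * d i j := by
  classical
  set n : ℝ := (Fintype.card V : ℝ) with hn
  have hnpos : 0 < n := by
    have : 0 < Fintype.card V := Fintype.card_pos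
    rw [hn]; exact_mod_cast this
  have hdn := d_nonneg h0 hsy htr
  have hcd : 0 ≤ ∑ i, ∑ j, c i j * d i j :=
    sum_nonneg fun i _ => sum_nonneg fun j _ => mul_nonneg (hc i j) (hdn i j)
  by_cases hex : ∃ x₀, Fintype.card V ≤ 3 * (univ.filter fun y => d x₀ y ≤ a).card
  · obtain ⟨x₀, hx₀⟩ := hex
    have hx₁ : Fintype.card V ≤ 3 * (univ.filter fun y => d x₀ y ≤ D / 3 / n ^ 2).card := by
      refine hx₀.trans (Nat.mul_le_mul_left 3 (card_le_card ?_))
      intro y hy
      simp only [mem_filter, mem_univ, true_and] at hy ⊢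
      refine hy.trans ?_
      rw [le_div_iff₀ (by positivity)]
      exact haR
    have := big_ball hc hs hsy htr hD x₀ (R := D / 3 / n ^ 2)
      (by rw [← hn]; field_simp) hx₁
    nlinarith
  · push Not at hex
    obtain ⟨U, hU1, hU2, hU⟩ := exists_union d h0 ha htr hgap hex
    have hcut := phi_mul_le hc U
    have hUc : ((Uᶜ).card : ℝ) = n - U.card := by
      rw [card_compl, Nat.cast_sub (card_le_univ U), ← hn]
    have hU1' : n ≤ 3 * (U.card : ℝ) := by rw [hn]; exact_mod_cast hU1
    have hU2' : 3 * (U.card : ℝ) < 2 * n := by rw [hn]; exact_mod_cast hU2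
    have hprod : 2 / 9 * n ^ 2 ≤ (U.card : ℝ) * ((Uᶜ).card : ℝ) := by
      rw [hUc]
      nlinarith
    have hcap : g * cutCap c U ≤ (∑ i, ∑ j, c i j * d i j) / 2 := by
      have h1 : g * (2 * cutCap c U) ≤ ∑ i, ∑ j, c i j * d i j := by
        rw [← sum_ind_sub c hs U, mul_sum]
        refine sum_le_sum fun x _ => ?_
        rw [mul_sum]
        refine sum_le_sum fun y _ => ?_
        by_cases hx : x ∈ U <;> by_cases hy : y ∈ U
        · simp only [ind, hx, hy, if_true, sub_self, abs_zero, mul_zero]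
          exact mul_nonneg (hc x y) (hdn x y)
        · simp only [ind, hx, hy, if_true, if_false, sub_zero, abs_one, mul_one]
          have := mul_le_mul_of_nonneg_left (hU x hx y hy) (hc x y)
          linarith
        · simp only [ind, hx, hy, if_true, if_false, zero_sub, abs_neg, abs_one, mul_one]
          have h2 := hU y hy x hx
          rw [hsy y x] at h2
          have := mul_le_mul_of_nonneg_left h2 (hc x y)
          linarith
        · simp only [ind, hx, hy, if_false, sub_self, abs_zero, mul_zero]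
          exact mul_nonneg (hc x y) (hdn x y)
      linarith
    have hphi := phi_nonneg hc
    have h3 : phi c * (2 / 9 * n ^ 2) ≤ cutCap c U :=
      (mul_le_mul_of_nonneg_left hprod hphi).trans hcut
    have h4 : g * (phi c * (2 / 9 * n ^ 2)) ≤ (∑ i, ∑ j, c i j * d i j) / 2 :=
      (mul_le_mul_of_nonneg_left h3 hg.le).trans hcap
    have h5 : phi c * (9 * D) ≤ phi c * (4 * K * g * n ^ 2) :=
      mul_le_mul_of_nonneg_left hgK hphi
    have hKpos : 0 < K := by linarith
    have h6 : K * (g * (phi c * (2 / 9 * n ^ 2))) ≤ K * ((∑ i, ∑ j, c i j * d i j) / 2) :=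
      mul_le_mul_of_nonneg_left h4 hKpos.le
    nlinarith

/-- **Few distances.**  A semimetric with at most `r` values on pairs of distinct points. -/
theorem few_distances [Nontrivial V] {c : V → V → ℝ} (hc : ∀ i j, 0 ≤ c i j)
    (hs : ∀ i j, c i j = c j i)
    {d : V → V → ℝ} (h0 : ∀ i, d i i = 0) (hsy : ∀ i j, d i j = d j i)
    (htr : ∀ i j k, d i k ≤ d i j + d j k) {r : ℕ} (F : Finset ℝ) (hF : F.card ≤ r)
    (hdF : ∀ i j, i ≠ j → d i j ∈ F) :
    phi c * ∑ i, ∑ j, d i j ≤ 9 * r * ∑ i, ∑ j, c i j * d i j := by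
  classical
  have hdn := d_nonneg h0 hsy htr
  have hcd : 0 ≤ ∑ i, ∑ j, c i j * d i j :=
    sum_nonneg fun i _ => sum_nonneg fun j _ => mul_nonneg (hc i j) (hdn i j)
  set n : ℝ := (Fintype.card V : ℝ) with hn
  have hnpos : 0 < n := by
    have : 0 < Fintype.card V := Fintype.card_pos
    rw [hn]; exact_mod_cast this
  obtain ⟨p, q, hpq⟩ := exists_pair_ne V
  have hrpos : 0 < r := lt_of_lt_of_le (card_pos.2 ⟨_, hdF p q hpq⟩) hF
  set D := ∑ i, ∑ j, d i j with hD
  have hD0 : 0 ≤ D := sum_nonneg fun i _ => sum_nonneg fun j _ => hdn i j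
  rcases hD0.eq_or_lt with hD1 | hD1
  · rw [← hD1, mul_zero]
    positivity
  -- R is a third of the average, g = R / r
  set R : ℝ := D / 3 / n ^ 2 with hR
  have hRpos : 0 < R := by positivity
  have hr' : (0 : ℝ) < r := by exact_mod_cast hrpos
  set g : ℝ := R / r with hg
  have hgpos : 0 < g := by positivity
  -- some value exceeds R
  have hbig : ∃ v ∈ F, R < v := by
    by_contra hcon
    push Not at hcon
    have h1 : ∀ i j, d i j ≤ R := by
      intro i j
      by_cases h : i = j
      · rw [h, h0]; exact hRpos.le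
      · exact hcon _ (hdF i j h)
    have h2 : D ≤ n ^ 2 * R := by
      rw [hD]
      calc ∑ i, ∑ j, d i j ≤ ∑ _i : V, ∑ _j : V, R :=
            sum_le_sum fun i _ => sum_le_sum fun j _ => h1 i j
        _ = n ^ 2 * R := by
            simp only [sum_const, card_univ, nsmul_eq_mul, ← hn]
            ring
    have h3 : n ^ 2 * R = D / 3 := by rw [hR]; field_simp
    linarith
  -- a free interval
  obtain ⟨v₁, hv₁, hv₂⟩ := hbig
  have hcardlt : ((F.erase v₁).image fun v => ⌈v / g⌉₊).card < (Finset.Icc 1 r).card := by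
    refine lt_of_le_of_lt card_image_le ?_
    have := card_erase_lt_of_mem hv₁
    simp only [Nat.card_Icc]
    omega
  obtain ⟨k, hk1, hk2⟩ := exists_mem_notMem_of_card_lt_card hcardlt
  simp only [mem_Icc] at hk1
  simp only [mem_image, mem_erase, not_exists, not_and, and_imp] at hk2
  obtain ⟨m, rfl⟩ : ∃ m, k = m + 1 := ⟨k - 1, by omega⟩
  have hmr : (m : ℝ) + 1 ≤ r := by exact_mod_cast hk1.2
  have hgr : (r : ℝ) * g = R := by rw [hg]; field_simp
  have hfree : ∀ v ∈ F, v ≤ m * g ∨ m * g + g ≤ v := by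
    intro v hv
    by_cases hvv : v = v₁
    · right
      rw [hvv]
      have : ((m : ℝ) + 1) * g ≤ r * g := mul_le_mul_of_nonneg_right hmr hgpos.le
      linarith
    · have h1 := hk2 v hvv hv
      by_contra hcon
      push Not at hcon
      apply h1
      rw [Nat.ceil_eq_iff (by omega)]
      constructor
      · rw [lt_div_iff₀ hgpos]
        simpa using hcon.1
      · rw [div_le_iff₀ hgpos]
        push_cast
        linarith [hcon.2]
  have hmain := gap_cut hc hs h0 hsy htr hD.symm (a := m * g) (g := g) (K := 9 * r)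
    (by positivity) hgpos
    (by
      rw [← hn]
      have h1 : (m : ℝ) * g ≤ R := by nlinarith
      have h2 : R * n ^ 2 = D / 3 := by rw [hR]; field_simp
      rw [← h2]
      exact mul_le_mul_of_nonneg_right h1 (by positivity))
    (by
      have : (1 : ℝ) ≤ r := by exact_mod_cast hrpos
      linarith)
    (by
      rw [← hn]
      have h2 : R * n ^ 2 = D / 3 := by rw [hR]; field_simp
      have h3 : 4 * (9 * (r : ℝ)) * g * n ^ 2 = 36 * ((r * g) * n ^ 2) := by ring
      rw [h3, hgr, h2]
      linarith)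
    (by
      intro i j
      by_cases h : i = j
      · left; rw [h, h0]; positivity
      · exact hfree _ (hdF i j h))
  exact hmain

end Vale.Agent.P318.R2.H858
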