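import Vale.Agent.P318.R2.H858.Comm

/-!
# The bound of order `sqrt r` for commutative coherent configurations
-/

open Finset Matrix

namespace Vale.Agent.P318.R2.H858

open Vale.Agent.P318.H867

variable {V : Type*} [Fintype V] [DecidableEq V] {κ : Type*} [DecidableEq κ]

/-- an interval without distances -/
lemma free_interval [Nontrivial V] {δ : V → V → ℝ} (h0 : ∀ i, δ i i = 0)
    {r : ℕ} (F : Finset ℝ) (hF : F.card ≤ r) (hdF : ∀ i j, i ≠ j → δ i j ∈ F)
    {R : ℝ} (hRpos : 0 < R)
    (hR : R * (Fintype.card V : ℝ) ^ 2 < ∑ i, ∑ j, δ i j) :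
    0 < r ∧ ∃ a, 0 ≤ a ∧ a ≤ R ∧ ∀ i j, δ i j ≤ a ∨ a + R / r ≤ δ i j := by
  classical
  set n : ℝ := (Fintype.card V : ℝ) with hn
  obtain ⟨p, q, hpq⟩ := exists_pair_ne V
  have hrpos : 0 < r := lt_of_lt_of_le (card_pos.2 ⟨_, hdF p q hpq⟩) hF
  refine ⟨hrpos, ?_⟩
  have hr' : (0 : ℝ) < r := by exact_mod_cast hrpos
  set g : ℝ := R / r with hg
  have hgpos : 0 < g := by positivity
  have hbig : ∃ v ∈ F, R < v := by
    by_contra hcon
    push Not at hcon
    have h1 : ∀ i j, δ i j ≤ R := by
      intro i j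
      by_cases h : i = j
      · rw [h, h0]; exact hRpos.le
      · exact hcon _ (hdF i j h)
    have h2 : ∑ i, ∑ j, δ i j ≤ R * n ^ 2 := by
      calc ∑ i, ∑ j, δ i j ≤ ∑ _i : V, ∑ _j : V, R :=
            sum_le_sum fun i _ => sum_le_sum fun j _ => h1 i j
        _ = R * n ^ 2 := by
            simp only [sum_const, card_univ, nsmul_eq_mul, ← hn]
            ring
    linarith
  obtain ⟨v₁, hv₁, hv₂⟩ := hbig
  have hcardlt : ((F.erase v₁).image fun v => ⌈v / g⌉₊).card < (Finset.Icc 1 r).card := by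
    refine lt_of_le_of_lt card_image_le ?_
    have := card_erase_lt_of_mem hv₁
    simp only [Nat.card_Icc]
    omega
  obtain ⟨k, hk1, hk2⟩ := exists_mem_notMem_of_card_lt_card hcardlt
  simp only [mem_Icc] at hk1
  simp only [mem_image, mem_erase, not_exists, not_and, and_imp] at hk2
  obtain ⟨m, rfl⟩ : ∃ m, k = m + 1 := ⟨k - 1, by omega⟩
  have hmr : (m : ℝ) + 1 ≤ r := by exact_mod_cast hk1.2
  have hgr : (r : ℝ) * g = R := by rw [hg]; field_simp
  have hfree : ∀ v ∈ F, v ≤ m * g ∨ m * g + g ≤ v := by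
    intro v hv
    by_cases hvv : v = v₁
    · right
      rw [hvv]
      have : ((m : ℝ) + 1) * g ≤ r * g := mul_le_mul_of_nonneg_right hmr hgpos.le
      linarith
    · have h1 := hk2 v hvv hv
      by_contra hcon
      push Not at hcon
      apply h1
      rw [Nat.ceil_eq_iff (by omega)]
      constructor
      · rw [lt_div_iff₀ hgpos]
        simpa using hcon.1
      · rw [div_le_iff₀ hgpos]
        push_cast
        linarith [hcon.2]
  refine ⟨m * g, by positivity, by nlinarith, fun i j => ?_⟩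
  by_cases h : i = j
  · left; rw [h, h0]; positivity
  · exact hfree _ (hdF i j h)

lemma inAlg_lap {col : V → V → κ} (hcol : IsCoherent col) {w : V → V → ℝ}
    (hw : ∀ x y x' y', col x y = col x' y' → w x y = w x' y') : InAlg col (lap w) := by
  have hdeg : ∀ x x', col x x = col x' x' → ∑ z, w x z = ∑ z, w x' z := by
    intro x x' h
    have hW : InAlg col (Matrix.of w) := hw
    have hone : InAlg col (Matrix.of fun _ _ => (1 : ℝ)) := fun _ _ _ _ _ => rfl
    have := (InAlg.mul hcol hW hone) x x x' x' h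
    simpa [Matrix.mul_apply] using this
  intro a b a' b' hab
  have hdd : a = b ↔ a' = b' := by
    constructor
    · intro e
      subst e
      exact hcol.diag a a' b' hab
    · intro e
      subst e
      exact hcol.diag a' a b hab.symm
  simp only [lap]
  rw [hw a b a' b' hab]
  by_cases e : a = b
  · rw [if_pos e, if_pos (hdd.1 e)]
    have e' := hdd.1 e
    subst e
    subst e'
    rw [hdeg a a' hab]
  · rw [if_neg e, if_neg (fun e' => e (hdd.2 e'))]

/-- **The bound of order `sqrt r`.** -/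
theorem root_bound [Nontrivial V] {c : V → V → ℝ} (hc : ∀ i j, 0 ≤ c i j)
    (hs : ∀ i j, c i j = c j i) {col : V → V → κ} (hcol : IsCoherent col)
    (hcomm : IsCommCol col)
    (hcc : ∀ x y x' y', col x y = col x' y' → c x y = c x' y')
    {r : ℕ} (F : Finset κ) (hF : F.card ≤ r) (hcov : ∀ x y, x ≠ y → col x y ∈ F ∨ col y x ∈ F)
    {d : V → V → ℝ} {m : Type*} [Fintype m] (v : V → EuclideanSpace ℝ m)
    (hd : ∀ i j, d i j = ‖v i - v j‖ ^ 2) (htr : ∀ i j k, d i k ≤ d i j + d j k) :
    (phi c * ∑ i, ∑ j, d i j) ^ 2 ≤ 32 * r * (∑ i, ∑ j, c i j * d i j) ^ 2 := by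
  classical
  have h0 : ∀ i, d i i = 0 := fun i => by rw [hd]; simp
  have hsy : ∀ i j, d i j = d j i := fun i j => by rw [hd, hd, norm_sub_rev]
  have hdn := d_nonneg h0 hsy htr
  set n : ℝ := (Fintype.card V : ℝ) with hn
  have hnpos : 0 < n := by
    have : 0 < Fintype.card V := Fintype.card_pos
    rw [hn]; exact_mod_cast this
  set D := ∑ i, ∑ j, d i j with hD
  set E := ∑ i, ∑ j, c i j * d i j with hE
  have hD0 : 0 ≤ D := sum_nonneg fun i _ => sum_nonneg fun j _ => hdn i j
  have hE0 : 0 ≤ E := sum_nonneg fun i _ => sum_nonneg fun j _ => mul_nonneg (hc i j) (hdn i j)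
  rcases hD0.eq_or_lt with hD1 | hD1
  · rw [← hD1]
    have : (0 : ℝ) ≤ 32 * r * E ^ 2 := by positivity
    simpa using this
  set δ : V → V → ℝ := fun x y => av col d (col x y) with hδ
  have hδc : ∀ x y x' y', col x y = col x' y' → δ x y = δ x' y' := fun x y x' y' h => by
    simp only [hδ, h]
  have hδ0 : ∀ i, δ i i = 0 := av_diag hcol h0
  have hδs : ∀ i j, δ i j = δ j i := av_symm hcol hsy
  have hδt : ∀ i j k, δ i k ≤ δ i j + δ j k := av_tri hcol htr
  have hδn := d_nonneg hδ0 hδs hδt
  have hsumδ : ∑ i, ∑ j, δ i j = D := by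
    have h1 := sum_av col d (fun _ _ => 1) (fun _ _ _ _ _ => rfl)
    simp only [one_mul] at h1
    exact h1
  have hsumcδ : ∑ i, ∑ j, c i j * δ i j = E := sum_av col d c hcc
  -- the free interval
  set R : ℝ := D / (2 * n ^ 2) with hR
  have hRpos : 0 < R := by positivity
  have hRn : R * n ^ 2 = D / 2 := by rw [hR]; field_simp
  obtain ⟨hrpos, a, ha0, haR, hgap⟩ := free_interval (δ := δ) hδ0 (r := r) (F.image (av col d))
    (card_image_le.trans hF) (by
      intro i j hij
      rcases hcov i j hij with h | h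
      · exact mem_image_of_mem _ h
      · rw [hδs]
        exact mem_image_of_mem _ h) hRpos (by rw [hsumδ, ← hn, hRn]; linarith)
  have hr' : (0 : ℝ) < r := by exact_mod_cast hrpos
  set g : ℝ := R / r with hg
  have hgpos : 0 < g := by positivity
  -- the blocks
  set N := Near δ g with hN
  set B : Matrix V V ℝ := Matrix.of fun x y => if N x y then (1 : ℝ) else 0 with hB
  have hBalg : InAlg col B := by
    intro x y x' y' h
    simp only [hB, Matrix.of_apply]
    by_cases h1 : N x y
    · rw [if_pos h1, if_pos (near_class hcol hδc h1 x' y' h)]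
    · rw [if_neg h1, if_neg (fun h2 => h1 (near_class hcol hδc h2 x y h.symm))]
  obtain ⟨x₀, -, -⟩ := exists_pair_ne V
  set b : ℝ := ∑ z, B x₀ z with hb
  have hBrow : ∀ x, ∑ z, B x z = b := fun x => row_const hcomm hBalg x x₀
  have hB01 : ∀ x y, 0 ≤ B x y := fun x y => by
    simp only [hB, Matrix.of_apply]
    split_ifs <;> norm_num
  have hbpos : 0 < b := by
    rw [hb]
    refine sum_pos' (fun y _ => hB01 x₀ y) ⟨x₀, mem_univ _, ?_⟩
    simp only [hB, Matrix.of_apply]
    have hrefl : N x₀ x₀ := Relation.ReflTransGen.refl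
    rw [if_pos hrefl]
    norm_num
  have hNs : ∀ x y, N x y → N y x := fun x y h => near_symm hδs h
  have hNt : ∀ x y z, N x y → N y z → N x z := fun x y z h h' => Relation.ReflTransGen.trans h h'
  have hBs : Bᵀ = B := by
    ext x y
    simp only [hB, Matrix.transpose_apply, Matrix.of_apply]
    by_cases h : N x y
    · rw [if_pos h, if_pos (hNs _ _ h)]
    · rw [if_neg h, if_neg (fun h' => h (hNs _ _ h'))]
  have hBB : B * B = b • B := by
    ext x y
    rw [Matrix.mul_apply, Matrix.smul_apply, smul_eq_mul]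
    by_cases h : N x y
    · have e1 : B x y = 1 := by simp only [hB, Matrix.of_apply]; rw [if_pos h]
      rw [e1, mul_one, ← hBrow x]
      refine sum_congr rfl fun z _ => ?_
      by_cases h1 : N x z
      · have e2 : B z y = 1 := by
          simp only [hB, Matrix.of_apply]
          rw [if_pos (hNt _ _ _ (hNs _ _ h1) h)]
        rw [e2, mul_one]
      · have e2 : B x z = 0 := by simp only [hB, Matrix.of_apply]; rw [if_neg h1]
        rw [e2, zero_mul]
    · have e1 : B x y = 0 := by simp only [hB, Matrix.of_apply]; rw [if_neg h]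
      rw [e1, mul_zero]
      refine sum_eq_zero fun z _ => ?_
      by_cases h1 : N x z
      · have e2 : B z y = 0 := by
          simp only [hB, Matrix.of_apply]
          rw [if_neg (fun h2 => h (hNt _ _ _ h1 h2))]
        rw [e2, mul_zero]
      · have e2 : B x z = 0 := by simp only [hB, Matrix.of_apply]; rw [if_neg h1]
        rw [e2, zero_mul]
  set P : Matrix V V ℝ := b⁻¹ • B with hP
  have hPx : ∀ x y, P x y = b⁻¹ * B x y := fun x y => rfl
  have hPalg : InAlg col P := fun x y x' y' h => by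
    rw [hPx, hPx, hBalg x y x' y' h]
  have hPs : Pᵀ = P := by rw [hP, Matrix.transpose_smul, hBs]
  have hPP : P * P = P := by
    rw [hP, Matrix.smul_mul, Matrix.mul_smul, hBB, smul_smul, smul_smul]
    congr 1
    field_simp
  have hP1 : ∀ x, ∑ y, P x y = 1 := by
    intro x
    simp only [hPx]
    rw [← mul_sum, hBrow, inv_mul_cancel₀ hbpos.ne']
  have hPc : P * lap c = lap c * P := InAlg.comm hcomm hPalg (inAlg_lap hcol hcc)
  -- the long edges
  set w : V → V → ℝ := fun x y => if g ≤ δ x y then c x y else 0 with hw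
  have hw0 : ∀ i j, 0 ≤ w i j := fun i j => by
    simp only [hw]; split_ifs
    · exact hc i j
    · exact le_rfl
  have hws : ∀ i j, w i j = w j i := fun i j => by
    simp only [hw]; rw [hδs i j, hs i j]
  have hwc : ∀ i j, w i j ≤ c i j := fun i j => by
    simp only [hw]; split_ifs
    · exact le_rfl
    · exact hc i j
  have hwalg : InAlg col (Matrix.of w) := by
    intro x y x' y' h
    simp only [hw, Matrix.of_apply]
    rw [hδc x y x' y' h, hcc x y x' y' h]
  set L : ℝ := ∑ z, w x₀ z with hL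
  have hLrow : ∀ x, ∑ z, w x z = L := fun x => row_const hcomm hwalg x x₀
  have hL0 : 0 ≤ L := sum_nonneg fun z _ => hw0 x₀ z
  have hLE : g * (n * L) ≤ E := by
    rw [← hsumcδ]
    have e1 : n * L = ∑ x, ∑ y, w x y := by
      rw [sum_congr rfl fun x _ => hLrow x, sum_const, card_univ, nsmul_eq_mul, ← hn]
    rw [e1, mul_sum]
    refine sum_le_sum fun x _ => ?_
    rw [mul_sum]
    refine sum_le_sum fun y _ => ?_
    simp only [hw]
    split_ifs with h
    · have := mul_le_mul_of_nonneg_left h (hc x y)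
      linarith
    · rw [mul_zero]
      exact mul_nonneg (hc x y) (hδn x y)
  -- Cheeger for the coordinates
  have hsep : ∀ f : V → ℝ, ∀ x y, (P *ᵥ f) x ≠ (P *ᵥ f) y → c x y = w x y := by
    intro f x y hne
    simp only [hw]
    by_cases h : g ≤ δ x y
    · rw [if_pos h]
    · exfalso
      apply hne
      push Not at h
      have hxy : N x y := Relation.ReflTransGen.single h
      simp only [Matrix.mulVec, dotProduct]
      refine sum_congr rfl fun z _ => ?_
      congr 1
      rw [hPx, hPx]
      congr 1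
      simp only [hB, Matrix.of_apply]
      by_cases h1 : N x z
      · rw [if_pos h1, if_pos (hNt _ _ _ (hNs _ _ hxy) h1)]
      · rw [if_neg h1, if_neg (fun h2 => h1 (hNt _ _ _ hxy h2))]
  have hk : ∀ f : V → ℝ, phi c ^ 2 * n * sp (P *ᵥ f) ≤ 8 * L * qf c f := by
    intro f
    refine (cheeger hc hs hw0 hws hwc (fun x => (hLrow x).le) (P *ᵥ f) (hsep f)).trans ?_
    exact mul_le_mul_of_nonneg_left (energy_proj hc hs hPs hPP hPc f) (by positivity)
  have hdk : ∀ i j, d i j = ∑ k, (v i k - v j k) ^ 2 := by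
    intro i j
    rw [hd, EuclideanSpace.norm_sq_eq]
    refine sum_congr rfl fun k _ => ?_
    simp
  have hEk : E = ∑ k, qf c (fun i => v i k) := by
    rw [hE]
    unfold qf
    simp_rw [hdk, mul_sum]
    rw [sum_congr rfl fun i _ => sum_comm, sum_comm]
  have hDk : D = ∑ k, sp (fun i => v i k) := by
    rw [hD]
    unfold sp
    simp_rw [hdk]
    rw [sum_congr rfl fun i _ => sum_comm, sum_comm]
  have hloss : ∑ k, (sp (fun i => v i k) - sp (P *ᵥ fun i => v i k)) ≤ n ^ 2 * a := by
    have e1 : ∑ k, (sp (fun i => v i k) - sp (P *ᵥ fun i => v i k)) =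
        n * ∑ x, ∑ y, P x y * d x y := by
      rw [sum_congr rfl fun k _ => spread_proj hPs hPP hP1 (fun i => v i k), ← mul_sum]
      congr 1
      simp_rw [hdk, mul_sum]
      rw [sum_comm]
      refine sum_congr rfl fun x _ => ?_
      rw [sum_comm]
    have e2 : ∑ x, ∑ y, P x y * d x y = ∑ x, ∑ y, P x y * δ x y :=
      (sum_av col d (fun x y => P x y) hPalg).symm
    have e3 : ∑ x, ∑ y, P x y * δ x y ≤ ∑ x, ∑ y, P x y * a := by
      refine sum_le_sum fun x _ => sum_le_sum fun y _ => ?_
      rw [hPx]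
      by_cases h : N x y
      · exact mul_le_mul_of_nonneg_left (near_le hδ0 hδt ha0 hgap h)
          (mul_nonneg (inv_nonneg.2 hbpos.le) (hB01 x y))
      · have : B x y = 0 := by simp only [hB, Matrix.of_apply]; rw [if_neg h]
        rw [this]; simp
    have e4 : ∑ x, ∑ y, P x y * a = n * a := by
      have e5 : ∀ x, ∑ y, P x y * a = a := fun x => by rw [← sum_mul, hP1, one_mul]
      rw [sum_congr rfl fun x _ => e5 x, sum_const, card_univ, nsmul_eq_mul, ← hn]
    rw [e1, e2]
    calc n * ∑ x, ∑ y, P x y * δ x y ≤ n * (n * a) :=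
          mul_le_mul_of_nonneg_left (e3.trans e4.le) hnpos.le
      _ = n ^ 2 * a := by ring
  have hkeep : D / 2 ≤ ∑ k, sp (P *ᵥ fun i => v i k) := by
    rw [sum_sub_distrib, ← hDk] at hloss
    have : n ^ 2 * a ≤ D / 2 := by
      rw [← hRn, mul_comm]
      exact mul_le_mul_of_nonneg_right haR (by positivity)
    linarith
  have hmain : phi c ^ 2 * n * (D / 2) ≤ 8 * L * E := by
    calc phi c ^ 2 * n * (D / 2) ≤ phi c ^ 2 * n * ∑ k, sp (P *ᵥ fun i => v i k) :=
          mul_le_mul_of_nonneg_left hkeep (by positivity)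
      _ = ∑ k, phi c ^ 2 * n * sp (P *ᵥ fun i => v i k) := by rw [mul_sum]
      _ ≤ ∑ k, 8 * L * qf c (fun i => v i k) := sum_le_sum fun k _ => hk _
      _ = 8 * L * E := by rw [← mul_sum, ← hEk]
  -- the end
  have h1 : g * n * (phi c ^ 2 * n * (D / 2)) ≤ 8 * E ^ 2 := by
    calc g * n * (phi c ^ 2 * n * (D / 2)) ≤ g * n * (8 * L * E) :=
          mul_le_mul_of_nonneg_left hmain (by positivity)
      _ = 8 * (g * (n * L)) * E := by ring
      _ ≤ 8 * E * E := by
          apply mul_le_mul_of_nonneg_right _ hE0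
          linarith
      _ = 8 * E ^ 2 := by ring
  have h2 : g * n * (phi c ^ 2 * n * (D / 2)) = (phi c * D) ^ 2 / (4 * r) := by
    rw [hg, hR]
    field_simp
    ring
  rw [h2, div_le_iff₀ (by positivity)] at h1
  linarith

end Vale.Agent.P318.R2.H858
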