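import Vale.Agent.P318.H867.Cut

/-!
# Step functions

A function with at most `r + 1` values has a threshold cut whose ratio is at most `r` times its
Rayleigh quotient.
-/

open Finset

namespace Vale.Agent.P318.R2.H858

open Vale.Agent.P318.H867

variable {V : Type*} [Fintype V] [DecidableEq V]

/-- increments of a finite set of reals -/
lemma exists_incr (F : Finset ℝ) : ∃ δ : ℝ → ℝ, (∀ t, 0 ≤ δ t) ∧
    ∀ a ∈ F, ∀ b ∈ F, a ≤ b → b - a = ∑ t ∈ F, if a < t ∧ t ≤ b then δ t else 0 := by
  classical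
  induction F using Finset.induction_on_max with
  | empty => exact ⟨fun _ => 0, fun _ => le_rfl, by simp⟩
  | insert m F hm ih =>
    obtain ⟨δ, hδ, hF⟩ := ih
    have hmF : m ∉ F := fun h => lt_irrefl _ (hm m h)
    rcases F.eq_empty_or_nonempty with he | hne
    · subst he
      refine ⟨fun _ => 0, fun _ => le_rfl, ?_⟩
      intro a ha b hb _
      simp only [insert_empty_eq, mem_singleton] at ha hb
      simp [ha, hb]
    · set p := F.max' hne with hp
      have hpF : p ∈ F := max'_mem _ _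
      have hple : ∀ t ∈ F, t ≤ p := fun t ht => le_max' _ _ ht
      have hpm : p < m := hm p hpF
      refine ⟨fun t => if t = m then m - p else δ t, fun t => ?_, ?_⟩
      · show 0 ≤ (if t = m then m - p else δ t)
        split_ifs
        · linarith
        · exact hδ t
      · have hsum : ∀ a b, ∑ t ∈ F, (if a < t ∧ t ≤ b then (if t = m then m - p else δ t) else 0)
            = ∑ t ∈ F, if a < t ∧ t ≤ b then δ t else 0 := by
          intro a b
          refine sum_congr rfl fun t ht => ?_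
          have : t ≠ m := fun h => hmF (h ▸ ht)
          simp [this]
        intro a ha b hb hab
        rw [sum_insert hmF, hsum]
        rcases mem_insert.1 hb with rfl | hbF
        · rcases mem_insert.1 ha with rfl | haF
          · simp only [lt_irrefl, false_and, if_false, zero_add, sub_self]
            symm
            refine sum_eq_zero fun t ht => ?_
            rw [if_neg]
            intro h
            exact absurd (hm t ht) (not_lt.2 h.1.le)
          · have ham : a < b := hm a haF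
            have h1 := hF a haF p hpF (hple a haF)
            have h2 : ∑ t ∈ F, (if a < t ∧ t ≤ b then δ t else 0) =
                ∑ t ∈ F, if a < t ∧ t ≤ p then δ t else 0 := by
              refine sum_congr rfl fun t ht => ?_
              have e1 : t ≤ b := (hm t ht).le
              have e2 := hple t ht
              simp [e1, e2]
            rw [h2, ← h1]
            simp only [ham, le_refl, and_self, if_true]
            ring
        · have hbm : b < m := hm b hbF
          rcases mem_insert.1 ha with rfl | haF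
          · exact absurd hab (not_le.2 hbm)
          · rw [hF a haF b hbF hab]
            have : ¬ (a < m ∧ m ≤ b) := fun h => absurd h.2 (not_le.2 hbm)
            simp [this]

/-- two-sided comparison of `(f x - f y) ^ 2` with threshold indicators -/
lemma step_bounds (F : Finset ℝ) : ∃ δ : ℝ → ℝ, ∀ a ∈ F, ∀ b ∈ F,
    (a - b) ^ 2 ≤ ((F.card : ℝ) - 1) *
      ∑ t ∈ F, δ t ^ 2 * |(if t ≤ a then (1 : ℝ) else 0) - (if t ≤ b then 1 else 0)| ∧
    ∑ t ∈ F, δ t ^ 2 * |(if t ≤ a then (1 : ℝ) else 0) - (if t ≤ b then 1 else 0)| ≤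
      (a - b) ^ 2 := by
  classical
  obtain ⟨δ, hδ, hF⟩ := exists_incr F
  refine ⟨δ, ?_⟩
  have key : ∀ a ∈ F, ∀ b ∈ F, a ≤ b → (a - b) ^ 2 ≤ ((F.card : ℝ) - 1) *
      ∑ t ∈ F, δ t ^ 2 * |(if t ≤ a then (1 : ℝ) else 0) - (if t ≤ b then 1 else 0)| ∧
    ∑ t ∈ F, δ t ^ 2 * |(if t ≤ a then (1 : ℝ) else 0) - (if t ≤ b then 1 else 0)| ≤
      (a - b) ^ 2 := by
    intro a ha b hb hab
    have h1 := hF a ha b hb hab
    set T := F.filter fun t => a < t ∧ t ≤ b with hT
    have h2 : b - a = ∑ t ∈ T, δ t := by rw [h1, hT, sum_filter]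
    have h3 : ∑ t ∈ F, δ t ^ 2 * |(if t ≤ a then (1 : ℝ) else 0) - (if t ≤ b then 1 else 0)| =
        ∑ t ∈ T, δ t ^ 2 := by
      rw [hT, sum_filter]
      refine sum_congr rfl fun t _ => ?_
      by_cases e1 : t ≤ a
      · have e2 : t ≤ b := e1.trans hab
        have e3 : ¬ (a < t ∧ t ≤ b) := fun h => absurd h.1 (not_lt.2 e1)
        rw [if_pos e1, if_pos e2, if_neg e3]
        simp
      · by_cases e2 : t ≤ b
        · have e3 : a < t ∧ t ≤ b := ⟨not_le.1 e1, e2⟩
          rw [if_neg e1, if_pos e2, if_pos e3]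
          simp
        · have e3 : ¬ (a < t ∧ t ≤ b) := fun h => e2 h.2
          rw [if_neg e1, if_neg e2, if_neg e3]
          simp
    rw [h3]
    have h4 : (a - b) ^ 2 = (∑ t ∈ T, δ t) ^ 2 := by rw [← h2]; ring
    rw [h4]
    have hTc : (T.card : ℝ) ≤ (F.card : ℝ) - 1 := by
      have : T.card < F.card := card_lt_card (by
        refine ⟨filter_subset _ _, fun h => ?_⟩
        have := h ha
        simp [hT] at this)
      have : T.card + 1 ≤ F.card := this
      have : ((T.card + 1 : ℕ) : ℝ) ≤ F.card := by exact_mod_cast this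
      push_cast at this
      linarith
    constructor
    · have hcs := sq_sum_le_card_mul_sum_sq (s := T) (f := δ)
      refine hcs.trans ?_
      exact mul_le_mul_of_nonneg_right hTc (sum_nonneg fun t _ => sq_nonneg _)
    · rw [sq, sum_mul_sum]
      refine sum_le_sum fun t ht => ?_
      rw [sq]
      exact single_le_sum (f := fun s => δ t * δ s) (fun s _ => mul_nonneg (hδ t) (hδ s)) ht
  intro a ha b hb
  rcases le_total a b with h | h
  · exact key a ha b hb h
  · have := key b hb a ha h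
    have e : (b - a) ^ 2 = (a - b) ^ 2 := by ring
    rw [e] at this
    simp_rw [abs_sub_comm (if _ ≤ b then (1 : ℝ) else 0)] at this
    exact this

/-- **Step functions.** -/
theorem step_cut {c : V → V → ℝ} (hc : ∀ i j, 0 ≤ c i j) (hs : ∀ i j, c i j = c j i)
    (f : V → ℝ) {r : ℕ} (F : Finset ℝ) (hF : F.card ≤ r + 1) (hf : ∀ x, f x ∈ F) :
    phi c * ∑ x, ∑ y, (f x - f y) ^ 2 ≤ r * ∑ x, ∑ y, c x y * (f x - f y) ^ 2 := by
  classical
  obtain ⟨δ, hδ⟩ := step_bounds F
  set I : ℝ → V → V → ℝ := fun t x y =>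
    |(if t ≤ f x then (1 : ℝ) else 0) - (if t ≤ f y then 1 else 0)| with hI
  have hcut : ∀ t, phi c * ∑ x, ∑ y, I t x y ≤ ∑ x, ∑ y, c x y * I t x y := by
    intro t
    have := ind_ineq hc hs (univ.filter fun x => t ≤ f x)
    simpa [ind, hI] using this
  have hcard : (F.card : ℝ) - 1 ≤ r := by
    have : (F.card : ℝ) ≤ ((r + 1 : ℕ) : ℝ) := by exact_mod_cast hF
    push_cast at this
    linarith
  have hI0 : ∀ t x y, 0 ≤ I t x y := fun t x y => abs_nonneg _
  have h1 : ∑ x, ∑ y, (f x - f y) ^ 2 ≤ r * ∑ t ∈ F, δ t ^ 2 * ∑ x, ∑ y, I t x y := by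
    have : ∀ x y, (f x - f y) ^ 2 ≤ r * ∑ t ∈ F, δ t ^ 2 * I t x y := by
      intro x y
      refine (hδ (f x) (hf x) (f y) (hf y)).1.trans ?_
      exact mul_le_mul_of_nonneg_right hcard
        (sum_nonneg fun t _ => mul_nonneg (sq_nonneg _) (hI0 t x y))
    calc ∑ x, ∑ y, (f x - f y) ^ 2 ≤ ∑ x, ∑ y, r * ∑ t ∈ F, δ t ^ 2 * I t x y :=
          sum_le_sum fun x _ => sum_le_sum fun y _ => this x y
      _ = r * ∑ t ∈ F, δ t ^ 2 * ∑ x, ∑ y, I t x y := by
          simp only [← mul_sum]
          congr 1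
          simp only [mul_sum]
          rw [sum_congr rfl fun x _ => sum_comm, sum_comm]
  have h2 : ∑ t ∈ F, δ t ^ 2 * ∑ x, ∑ y, c x y * I t x y ≤
      ∑ x, ∑ y, c x y * (f x - f y) ^ 2 := by
    have e : ∑ t ∈ F, δ t ^ 2 * ∑ x, ∑ y, c x y * I t x y =
        ∑ x, ∑ y, c x y * ∑ t ∈ F, δ t ^ 2 * I t x y := by
      simp only [mul_sum]
      rw [sum_comm]
      refine sum_congr rfl fun x _ => ?_
      rw [sum_comm]
      refine sum_congr rfl fun y _ => sum_congr rfl fun t _ => ?_
      ring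
    rw [e]
    refine sum_le_sum fun x _ => sum_le_sum fun y _ => ?_
    exact mul_le_mul_of_nonneg_left (hδ (f x) (hf x) (f y) (hf y)).2 (hc x y)
  have hphi := phi_nonneg hc
  have h3 : phi c * ∑ t ∈ F, δ t ^ 2 * ∑ x, ∑ y, I t x y ≤
      ∑ t ∈ F, δ t ^ 2 * ∑ x, ∑ y, c x y * I t x y := by
    rw [mul_sum]
    refine sum_le_sum fun t _ => ?_
    have := mul_le_mul_of_nonneg_left (hcut t) (sq_nonneg (δ t))
    linarith
  calc phi c * ∑ x, ∑ y, (f x - f y) ^ 2
      ≤ phi c * (r * ∑ t ∈ F, δ t ^ 2 * ∑ x, ∑ y, I t x y) :=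
        mul_le_mul_of_nonneg_left h1 hphi
    _ = r * (phi c * ∑ t ∈ F, δ t ^ 2 * ∑ x, ∑ y, I t x y) := by ring
    _ ≤ r * ∑ x, ∑ y, c x y * (f x - f y) ^ 2 :=
        mul_le_mul_of_nonneg_left (h3.trans h2) (Nat.cast_nonneg r)

end Vale.Agent.P318.R2.H858
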