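import Vale.Agent.P318.R2.H858.Alg
import Vale.Agent.P318.R2.H858.Steps

/-!
# The spectral bound for coherent configurations
-/

open Finset Matrix

namespace Vale.Agent.P318.R2.H858

open Vale.Agent.P318.H867

variable {V : Type*} [Fintype V] [DecidableEq V] {κ : Type*} [DecidableEq κ]

/-- a feasible solution exists -/
lemma exists_feasible (V : Type*) [Fintype V] [DecidableEq V] [Nontrivial V] :
    ∃ d : V → V → ℝ, IsNegTypeSemimetric d ∧ (∑ i, ∑ j, d i j) / 2 = 1 := by
  have hn : (1 : ℝ) < Fintype.card V := by exact_mod_cast Fintype.one_lt_card (α := V)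
  set N : ℝ := (Fintype.card V : ℝ) with hN
  set t : ℝ := 1 / (N * (N - 1)) with ht
  have htpos : 0 < t := by
    have : 0 < N - 1 := by linarith
    positivity
  refine ⟨fun i j => if i = j then 0 else 2 * t, ⟨⟨fun i => EuclideanSpace.single i (Real.sqrt t),
    ?_⟩, ?_⟩, ?_⟩
  · intro i j
    by_cases h : i = j
    · simp [h]
    · simp only [if_neg h]
      rw [EuclideanSpace.norm_sq_eq]
      have h1 : ∀ k, ‖(EuclideanSpace.single i (Real.sqrt t) -
          EuclideanSpace.single j (Real.sqrt t) : EuclideanSpace ℝ V) k‖ ^ 2 =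
          (if k = i then t else 0) + (if k = j then t else 0) := by
        intro k
        by_cases hi : k = i
        · have hj : k ≠ j := fun h' => h (hi.symm.trans h')
          subst hi
          simp [hj, Real.sq_sqrt htpos.le]
        · by_cases hj : k = j
          · subst hj
            simp [hi, Real.sq_sqrt htpos.le]
          · simp [hi, hj]
      simp_rw [h1, sum_add_distrib]
      simp
      ring
  · intro i j k
    by_cases h1 : i = k
    · subst h1
      simp only [if_true]
      split_ifs <;> linarith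
    · by_cases h2 : i = j
      · subst h2
        simp [h1]
      · simp only [h1, h2, if_false]
        split_ifs <;> linarith
  · have h1 : ∀ i : V, ∑ j, (if i = j then (0:ℝ) else 2 * t) = (N - 1) * (2 * t) := by
      intro i
      have h2 : ∀ j : V, (if i = j then (0:ℝ) else 2 * t) = 2 * t - (if i = j then 2 * t else 0) := by
        intro j; split_ifs <;> simp
      simp_rw [h2, sum_sub_distrib]
      simp [hN]
      ring
    simp_rw [h1]
    rw [sum_const, card_univ, nsmul_eq_mul, ← hN, ht]
    have : N - 1 ≠ 0 := by linarith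
    have : N ≠ 0 := by linarith
    field_simp

/-- the quadratic form of the capacities -/
def qf (c : V → V → ℝ) (f : V → ℝ) : ℝ := ∑ x, ∑ y, c x y * (f x - f y) ^ 2

/-- the spread -/
def sp (f : V → ℝ) : ℝ := ∑ x, ∑ y, (f x - f y) ^ 2

omit [DecidableEq V] in
lemma sp_eq (g : V → ℝ) :
    sp g = 2 * (Fintype.card V : ℝ) * ∑ x, g x ^ 2 - 2 * (∑ x, g x) ^ 2 := by
  unfold sp
  have h1 : ∀ x y, (g x - g y) ^ 2 = g x ^ 2 + g y ^ 2 - 2 * (g x * g y) := fun x y => by ring
  simp_rw [h1, sum_sub_distrib, sum_add_distrib, sum_const, card_univ, nsmul_eq_mul, ← mul_sum,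
    ← sum_mul]
  ring

/-- the spectral constant is attained -/
lemma exists_min [Nontrivial V] {c : V → V → ℝ} (hc : ∀ i j, 0 ≤ c i j) :
    ∃ (s : ℝ) (f₀ : V → ℝ), 0 ≤ s ∧ (∃ x y, f₀ x ≠ f₀ y) ∧ (∀ f, s * sp f ≤ qf c f) ∧
      qf c f₀ = s * sp f₀ := by
  classical
  set n : ℝ := (Fintype.card V : ℝ) with hn
  have hnpos : 0 < n := by
    have : 0 < Fintype.card V := Fintype.card_pos
    rw [hn]; exact_mod_cast this
  set K : Set (V → ℝ) := {f | ∑ x, f x = 0 ∧ ∑ x, f x ^ 2 = 1} with hK
  have hclosed : IsClosed K := by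
    apply IsClosed.inter
    · exact isClosed_eq (continuous_finsetSum _ fun x _ => continuous_apply x) continuous_const
    · exact isClosed_eq (continuous_finsetSum _ fun x _ => (continuous_apply x).pow 2)
        continuous_const
  have hcompact : IsCompact K := by
    refine (isCompact_univ_pi (fun _ : V => isCompact_Icc (a := (-1 : ℝ)) (b := 1))).of_isClosed_subset
      hclosed ?_
    intro f hf x _
    have h1 : f x ^ 2 ≤ 1 := by
      rw [← hf.2]
      exact single_le_sum (f := fun x => f x ^ 2) (fun y _ => sq_nonneg _) (mem_univ x)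
    exact abs_le.1 (abs_le_one_iff_mul_self_le_one.2 (by nlinarith))
  have hne : K.Nonempty := by
    obtain ⟨p, q, hpq⟩ := exists_pair_ne V
    refine ⟨fun x => (if x = p then (Real.sqrt 2)⁻¹ else 0) - (if x = q then (Real.sqrt 2)⁻¹ else 0),
      ?_, ?_⟩
    · simp
    · have h2 : ∀ x, ((if x = p then (Real.sqrt 2)⁻¹ else 0) -
          (if x = q then (Real.sqrt 2)⁻¹ else 0)) ^ 2 =
          (if x = p then (1 / 2 : ℝ) else 0) + (if x = q then (1 / 2 : ℝ) else 0) := by
        intro x
        by_cases h : x = p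
        · have h' : x ≠ q := fun e => hpq (h.symm.trans e)
          simp [h, hpq]
        · by_cases h' : x = q
          · simp [h', Ne.symm hpq]
          · simp [h, h']
      simp_rw [h2, sum_add_distrib]
      simp
      norm_num
  have hcont : ContinuousOn (qf c) K := by
    apply Continuous.continuousOn
    unfold qf
    exact continuous_finsetSum _ fun x _ => continuous_finsetSum _ fun y _ =>
      continuous_const.mul (((continuous_apply x).sub (continuous_apply y)).pow 2)
  obtain ⟨f₀, hf₀, hmin⟩ := hcompact.exists_isMinOn hne hcont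
  have hq0 : ∀ f, 0 ≤ qf c f := fun f =>
    sum_nonneg fun x _ => sum_nonneg fun y _ => mul_nonneg (hc x y) (sq_nonneg _)
  have hspf₀ : sp f₀ = 2 * n := by
    rw [sp_eq, hf₀.1, hf₀.2, ← hn]; ring
  refine ⟨qf c f₀ / (2 * n), f₀, div_nonneg (hq0 _) (by positivity), ?_, ?_, ?_⟩
  · by_contra hcon
    push Not at hcon
    have : sp f₀ = 0 := by
      unfold sp
      refine sum_eq_zero fun x _ => sum_eq_zero fun y _ => ?_
      rw [hcon x y]; ring
    rw [hspf₀] at this
    linarith
  · intro f
    set μ : ℝ := (∑ x, f x) / n with hμ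
    set g : V → ℝ := fun x => f x - μ with hg
    have hgs : ∑ x, g x = 0 := by
      simp only [hg, sum_sub_distrib, sum_const, card_univ, nsmul_eq_mul, ← hn]
      rw [hμ]; field_simp; ring
    have hqg : qf c g = qf c f := by
      unfold qf
      refine sum_congr rfl fun x _ => sum_congr rfl fun y _ => ?_
      simp only [hg]; ring
    have hspg : sp g = sp f := by
      unfold sp
      refine sum_congr rfl fun x _ => sum_congr rfl fun y _ => ?_
      simp only [hg]; ring
    set N : ℝ := ∑ x, g x ^ 2 with hN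
    have hspN : sp f = 2 * n * N := by
      rw [← hspg, sp_eq, hgs, ← hn, ← hN]; ring
    have hN0 : 0 ≤ N := sum_nonneg fun x _ => sq_nonneg _
    rcases hN0.eq_or_lt with h | h
    · rw [hspN, ← h]
      simpa using hq0 f
    · set t : ℝ := (Real.sqrt N)⁻¹ with ht
      have ht2 : t ^ 2 * N = 1 := by
        rw [ht, inv_pow, Real.sq_sqrt hN0, inv_mul_cancel₀ h.ne']
      have hmem : (fun x => t * g x) ∈ K := by
        refine ⟨?_, ?_⟩
        · rw [← mul_sum, hgs, mul_zero]
        · simp_rw [mul_pow]
          rw [← mul_sum, ← hN, ht2]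
      have h1 := hmin hmem
      change qf c f₀ ≤ qf c (fun x => t * g x) at h1
      have h2 : qf c (fun x => t * g x) = t ^ 2 * qf c f := by
        rw [← hqg]
        unfold qf
        rw [mul_sum]
        refine sum_congr rfl fun x _ => ?_
        rw [mul_sum]
        refine sum_congr rfl fun y _ => ?_
        ring
      rw [h2] at h1
      rw [hspN]
      have h3 : qf c f₀ / (2 * n) * (2 * n * N) = qf c f₀ * N := by field_simp
      rw [h3]
      calc qf c f₀ * N ≤ t ^ 2 * qf c f * N := mul_le_mul_of_nonneg_right h1 hN0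
        _ = (t ^ 2 * N) * qf c f := by ring
        _ = qf c f := by rw [ht2, one_mul]
  · rw [hspf₀]; field_simp

/-- **The spectral bound.**  `r` bounds the number of colours seen from a point. -/
theorem spectral_bound [Nontrivial V] {c : V → V → ℝ} (hc : ∀ i j, 0 ≤ c i j)
    (hs : ∀ i j, c i j = c j i) {col : V → V → κ} (hcol : IsCoherent col)
    (hcc : ∀ x y x' y', col x y = col x' y' → c x y = c x' y')
    {r : ℕ} (hr : ∀ w, ((univ.filter fun x => x ≠ w).image fun x => col x w).card ≤ r)
    (f : V → ℝ) : phi c * sp f ≤ r * qf c f := by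
  classical
  obtain ⟨s, f₀, hs0, hne, hmin, hatt⟩ := exists_min hc
  -- the shifted weights
  set w : V → V → ℝ := fun x y => c x y - s with hw
  have hwq : ∀ g : V → ℝ, ∑ x, ∑ y, w x y * (g x - g y) ^ 2 = qf c g - s * sp g := by
    intro g
    unfold qf sp
    rw [mul_sum, ← sum_sub_distrib]
    refine sum_congr rfl fun x _ => ?_
    rw [mul_sum, ← sum_sub_distrib]
    refine sum_congr rfl fun y _ => ?_
    simp only [hw]; ring
  have hwsym : ∀ i j, w i j = w j i := fun i j => by simp only [hw, hs i j]
  have hwpos : ∀ g : V → ℝ, 0 ≤ ∑ x, ∑ y, w x y * (g x - g y) ^ 2 := by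
    intro g
    rw [hwq]
    linarith [hmin g]
  have hker := lap_ker hwsym hwpos (f := f₀) (by rw [hwq]; linarith)
  -- the Laplacian lies in the algebra
  have hdeg : ∀ x x', col x x = col x' x' → ∑ z, w x z = ∑ z, w x' z := by
    intro x x' h
    have hW : InAlg col (Matrix.of w) := by
      intro a b a' b' hab
      simp only [hw, Matrix.of_apply]
      rw [hcc a b a' b' hab]
    have hone : InAlg col (Matrix.of fun _ _ => (1 : ℝ)) := fun _ _ _ _ _ => rfl
    have := (InAlg.mul hcol hW hone) x x x' x' h
    simpa [Matrix.mul_apply] using this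
  have hB : InAlg col (lap w) := by
    intro a b a' b' hab
    have hdd : a = b ↔ a' = b' := by
      constructor
      · intro e
        subst e
        exact hcol.diag a a' b' hab
      · intro e
        subst e
        exact hcol.diag a' a b hab.symm
    simp only [lap]
    have h1 : w a b = w a' b' := by simp only [hw]; rw [hcc a b a' b' hab]
    rw [h1]
    by_cases e : a = b
    · rw [if_pos e, if_pos (hdd.1 e)]
      have e' := hdd.1 e
      subst e
      subst e'
      rw [hdeg a a' hab]
    · rw [if_neg e, if_neg (fun e' => e (hdd.2 e'))]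
  obtain ⟨E, hE, v, hv1, hv2⟩ := exists_column hcol hB (lap_symm hwsym) hker hne
  -- the column has few values
  set h : V → ℝ := fun x => E x v with hh
  obtain ⟨α, hα⟩ := hE.factor
  have hvals : ∀ x, h x ∈ insert (α (col v v))
      (((univ.filter fun x => x ≠ v).image fun x => col x v).image α) := by
    intro x
    by_cases hx : x = v
    · subst hx
      rw [mem_insert]
      left
      exact hα x x
    · rw [mem_insert]
      right
      refine mem_image.2 ⟨col x v, mem_image.2 ⟨x, by simpa using hx, rfl⟩, ?_⟩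
      exact (hα x v).symm
  have hcard : (insert (α (col v v))
      (((univ.filter fun x => x ≠ v).image fun x => col x v).image α)).card ≤ r + 1 :=
    (card_insert_le _ _).trans (Nat.succ_le_succ (card_image_le.trans (hr v)))
  have hstep := step_cut hc hs h _ hcard hvals
  -- the column attains the spectral constant
  have hatt2 : qf c h = s * sp h := by
    have h1 := lap_form hwsym h
    rw [hwq] at h1
    rw [hv1] at h1
    simp only [Pi.zero_apply, mul_zero, sum_const_zero] at h1
    linarith
  have hsp : 0 < sp h := by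
    obtain ⟨x, y, hxy⟩ := hv2
    unfold sp
    refine sum_pos' (fun a _ => sum_nonneg fun b _ => sq_nonneg _) ⟨x, mem_univ _, ?_⟩
    refine sum_pos' (fun b _ => sq_nonneg _) ⟨y, mem_univ _, ?_⟩
    exact lt_of_le_of_ne (sq_nonneg _) (Ne.symm (pow_ne_zero 2 (sub_ne_zero.2 hxy)))
  have hstep' : phi c * sp h ≤ r * qf c h := hstep
  rw [hatt2] at hstep'
  have hphi : phi c ≤ r * s := by
    have : phi c * sp h ≤ (r * s) * sp h := by linarith
    exact le_of_mul_le_mul_right this hsp
  have hspf : 0 ≤ sp f := sum_nonneg fun a _ => sum_nonneg fun b _ => sq_nonneg _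
  calc phi c * sp f ≤ (r * s) * sp f := mul_le_mul_of_nonneg_right hphi hspf
    _ = r * (s * sp f) := by ring
    _ ≤ r * qf c f := mul_le_mul_of_nonneg_left (hmin f) (Nat.cast_nonneg r)

/-- the same for squared Euclidean distances -/
theorem spectral_bound_vec [Nontrivial V] {c : V → V → ℝ} (hc : ∀ i j, 0 ≤ c i j)
    (hs : ∀ i j, c i j = c j i) {col : V → V → κ} (hcol : IsCoherent col)
    (hcc : ∀ x y x' y', col x y = col x' y' → c x y = c x' y')
    {r : ℕ} (hr : ∀ w, ((univ.filter fun x => x ≠ w).image fun x => col x w).card ≤ r)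
    {d : V → V → ℝ} {m : Type*} [Fintype m] (x : V → EuclideanSpace ℝ m)
    (hd : ∀ i j, d i j = ‖x i - x j‖ ^ 2) :
    phi c * ∑ i, ∑ j, d i j ≤ r * ∑ i, ∑ j, c i j * d i j := by
  have hdk : ∀ i j, d i j = ∑ k, (x i k - x j k) ^ 2 := by
    intro i j
    rw [hd, EuclideanSpace.norm_sq_eq]
    refine sum_congr rfl fun k _ => ?_
    simp
  have h1 : ∑ i, ∑ j, d i j = ∑ k, sp (fun i => x i k) := by
    unfold sp
    simp_rw [hdk]
    rw [sum_congr rfl fun i _ => sum_comm, sum_comm]
  have h2 : ∑ i, ∑ j, c i j * d i j = ∑ k, qf c (fun i => x i k) := by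
    unfold qf
    simp_rw [hdk, mul_sum]
    rw [sum_congr rfl fun i _ => sum_comm, sum_comm]
  rw [h1, h2, mul_sum, mul_sum]
  exact sum_le_sum fun k _ => spectral_bound hc hs hcol hcc hr _

/-- the Goemans-Linial relaxation -/
theorem gl_bound [Nontrivial V] {c : V → V → ℝ} (hc : ∀ i j, 0 ≤ c i j)
    (hs : ∀ i j, c i j = c j i) {col : V → V → κ} (hcol : IsCoherent col)
    (hcc : ∀ x y x' y', col x y = col x' y' → c x y = c x' y')
    {r : ℕ} (hr : ∀ w, ((univ.filter fun x => x ≠ w).image fun x => col x w).card ≤ r) :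
    phi c ≤ r * glValue c := by
  classical
  obtain ⟨p, q, hpq⟩ := exists_pair_ne V
  have hr1 : 0 < r := by
    refine lt_of_lt_of_le (card_pos.2 ⟨col p q, ?_⟩) (hr q)
    exact mem_image.2 ⟨p, by simpa using hpq, rfl⟩
  have hr' : (0 : ℝ) < r := by exact_mod_cast hr1
  rw [← div_le_iff₀' hr']
  apply le_csInf
  · obtain ⟨d, hd, h1⟩ := exists_feasible V
    exact ⟨_, d, hd, h1, rfl⟩
  · rintro t ⟨d, ⟨⟨x, hx⟩, -⟩, h1, rfl⟩
    rw [div_le_iff₀' hr']
    have := spectral_bound_vec hc hs hcol hcc hr x hx
    have h2 : ∑ i, ∑ j, d i j = 2 := by linarith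
    rw [h2] at this
    linarith

end Vale.Agent.P318.R2.H858
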